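import Vale.Agent.P365.J376.PathG
import Vale.Agent.P365.T1.MAff

/-!
# P365-T1, composition: from the cost of the flow to the sum of the off-resonant energies
(chapter A under labels), in real and in `lintegral` form.
-/

set_option linter.all false

namespace Vale.Agent.P365.J376

open P365L P365O P365T1 P365L.TL Matrix Complex MeasureTheory Filter Topology Set
open scoped ComplexConjugate ENNReal

section gen

variable {ι : Type*} [Fintype ι] [DecidableEq ι] {A : Matrix ι ι ℝ}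

/-- Bochner version of resampling one coordinate -/
theorem integral_resample' (μ : ι → Measure ℝ) [∀ i, IsProbabilityMeasure (μ i)] (x : ι)
    (f : (ι → ℝ) → ℝ) (hf : Integrable f (Measure.pi μ)) :
    ∫ c, f c ∂(Measure.pi μ) = ∫ c, ∫ t, f (Function.update c x t) ∂(μ x) ∂(Measure.pi μ) := by
  have hmp := MAff.measurePreserving_resample μ x
  have hf' : Integrable (fun p : (ι → ℝ) × ℝ => f (Function.update p.1 x p.2))
      ((Measure.pi μ).prod (μ x)) := by
    have h := hmp.integrable_comp_of_integrable hf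
    exact h
  rw [← integral_prod _ hf']
  conv_lhs => rw [← hmp.map_eq]
  refine integral_map hmp.aemeasurable ?_
  rw [hmp.map_eq]
  exact hf.aestronglyMeasurable

theorem WV_update (E : ℝ) (e v : ι → ℝ) (x : ι) (t : ℝ) :
    WV E e (Function.update v x t) = rez (WV E e v) x (t - E) := by
  funext y
  unfold WV rez
  by_cases h : y = x
  · subst h
    rw [Function.update_self, Function.update_self]
    simp
    ring
  · rw [Function.update_of_ne h, Function.update_of_ne h]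

theorem WV_neg {E : ℝ} {e : ι → ℝ} (he : ∀ x, 0 < e x) (v : ι → ℝ) (x : ι) :
    (WV E e v x).im < 0 := by
  rw [WV_eq_Wp, Wp_im]
  linarith [he x]

/-! ### `Yf`: measurability and bounds -/

theorem measurable_gw_WV (E : ℝ) (e : ι → ℝ) (z a : ι) :
    Measurable fun v : ι → ℝ => gw A (WV E e v) z a := by
  unfold gw
  exact (measurable_Gr_Wp (a := fun (v : ι → ℝ) x => v x - E) (h := fun _ => e)
    (fun x => measurable_coord_sub E x) (fun x => measurable_const) a z).div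
    (measurable_Gr_Wp (a := fun (v : ι → ℝ) x => v x - E) (h := fun _ => e)
    (fun x => measurable_coord_sub E x) (fun x => measurable_const) z z)

theorem measurable_sg_WV (E : ℝ) (e : ι → ℝ) (z : ι) :
    Measurable fun v : ι → ℝ => sg A (WV E e v) z := by
  unfold sg
  have h1 : Measurable fun v : ι → ℝ => WV E e v z := by
    unfold WV
    exact (Complex.measurable_ofReal.comp (measurable_coord_sub E z)).sub_const _
  exact h1.sub (measurable_Gr_Wp (a := fun (v : ι → ℝ) x => v x - E) (h := fun _ => e)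
    (fun x => measurable_coord_sub E x) (fun x => measurable_const) z z).inv

theorem measurable_Nf_WV (E : ℝ) (e : ι → ℝ) (f : ι → ℝ) (z : ι) :
    Measurable fun v : ι → ℝ => Nf A (WV E e v) f z := by
  unfold Nf
  refine Finset.measurable_sum _ fun a _ => ?_
  have h0 : ∀ v : ι → ℝ, (WV E e v a).im = -(e a) := fun v => by rw [WV_eq_Wp, Wp_im]
  simp only [h0]
  exact (((measurable_gw_WV E e z a).norm.pow_const 2).const_mul _).mul_const _

theorem measurable_Yf_WV (E : ℝ) (e : ι → ℝ) (f : ι → ℝ) (z : ι) :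
    Measurable fun v : ι → ℝ => Yf A (WV E e v) f z := by
  unfold Yf
  exact (measurable_Nf_WV E e f z).div
    (((measurable_sg_WV E e z).norm.pow_const 2).const_add 1)

theorem measurable_Mf_WV (E : ℝ) (e : ι → ℝ) (f : ι → ℝ) (z : ι) :
    Measurable fun v : ι → ℝ => Mf A (WV E e v) f z :=
  measurable_Mf_Wp (a := fun (v : ι → ℝ) x => v x - E) (h := fun _ => e)
    (fun x => measurable_coord_sub E x) (fun x => measurable_const) f z

theorem measurable_En_WV (E : ℝ) (e : ι → ℝ) (f : ι → ℝ) :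
    Measurable fun v : ι → ℝ => En A (WV E e v) f :=
  measurable_En_Wp (a := fun (v : ι → ℝ) x => v x - E) (h := fun _ => e)
    (fun x => measurable_coord_sub E x) (fun x => measurable_const) f

theorem Yf_nonneg {W : ι → ℂ} (hW : ∀ x, (W x).im < 0) (f : ι → ℝ) (z : ι) :
    0 ≤ Yf A W f z := by
  unfold Yf
  exact div_nonneg (Nf_nonneg hW f z) (by positivity)

/-- one term of `Mf` is at most `(f a - f z)² / e_z` -/
theorem e_mul_KK_mul_e_le (hA : A.IsSymm) {W : ι → ℂ} (hW : ∀ x, (W x).im < 0) (x y : ι) :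
    (-(W x).im) * (-(W y).im) * KK A W x y ≤ 1 := by
  have h1 := e_mul_KK_le hA hW x y
  have h7 : 0 < -(W x).im := by linarith [hW x]
  have h2 : (-(W x).im) * mm A W x ≤ 1 := by
    have h4 := e_mul_KK_le hA hW x x
    have h5 : mm A W x ^ 2 ≤ KK A W x x := by
      unfold mm KK
      rw [← sq_abs]
      exact pow_le_pow_left₀ (abs_nonneg _) (Complex.abs_im_le_norm _) 2
    have h6 := mm_pos hA hW x
    have h8 : (-(W x).im) * mm A W x * mm A W x ≤ 1 * mm A W x := by
      have := mul_le_mul_of_nonneg_left h5 h7.le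
      nlinarith
    exact le_of_mul_le_mul_right h8 h6
  have := mul_le_mul_of_nonneg_left h1 h7.le
  nlinarith

/-- `Yf ≤ 2 * Mf` at `W_z = -i` -/
theorem Yf_le_two_Mf (hA : A.IsSymm) {W : ι → ℂ} (hW : ∀ x, (W x).im < 0) (f : ι → ℝ) (z : ι) :
    Yf A W f z ≤ 2 * Mf A (Function.update W z (-I)) f z := by
  have hI : (-I : ℂ).im < 0 := by simp
  rw [Mf_upd hA hW hI, Yf]
  have h1 := Nf_nonneg (A := A) hW f z
  have h2 := sg_im_nonneg hA hW z
  have h3 : ‖-I - sg A W z‖ ^ 2 ≤ 2 * (1 + ‖sg A W z‖ ^ 2) := by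
    have h4 : ‖-I - sg A W z‖ ≤ 1 + ‖sg A W z‖ := by
      refine (norm_sub_le _ _).trans ?_
      rw [norm_neg, Complex.norm_I]
    have h5 : 0 ≤ ‖-I - sg A W z‖ := norm_nonneg _
    nlinarith [sq_nonneg (1 - ‖sg A W z‖)]
  have h6 : 0 < ‖-I - sg A W z‖ ^ 2 := by
    refine pow_pos (norm_pos_iff.2 fun h => ?_) 2
    have := congrArg Complex.im h
    simp at this
    linarith
  rw [div_le_iff₀ (by positivity)]
  have h7 : Nf A W f z / ‖-I - sg A W z‖ ^ 2 * ‖-I - sg A W z‖ ^ 2 = Nf A W f z :=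
    div_mul_cancel₀ _ h6.ne'
  have h8 : 0 ≤ Nf A W f z / ‖-I - sg A W z‖ ^ 2 := div_nonneg h1 h6.le
  nlinarith

theorem Yf_le (hA : A.IsSymm) {W : ι → ℂ} (hW : ∀ x, (W x).im < 0) (f : ι → ℝ) (z : ι) :
    Yf A W f z ≤ 2 * ∑ a, (f a - f z) ^ 2 := by
  refine (Yf_le_two_Mf hA hW f z).trans (mul_le_mul_of_nonneg_left ?_ (by norm_num))
  have hI : (-I : ℂ).im < 0 := by simp
  have hW' : ∀ x, (Function.update W z (-I) x).im < 0 := fun x => update_neg hW hI x
  unfold Mf
  refine Finset.sum_le_sum fun a _ => ?_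
  have h1 := e_mul_KK_mul_e_le hA hW' z a
  rw [Function.update_self] at h1
  simp only [Complex.neg_im, Complex.I_im, neg_neg, one_mul] at h1
  calc _ ≤ 1 * (f a - f z) ^ 2 := mul_le_mul_of_nonneg_right h1 (sq_nonneg _)
    _ = _ := one_mul _

theorem integrable_Yf (hA : A.IsSymm) (m : Measure (ι → ℝ)) [IsFiniteMeasure m] (E : ℝ)
    {e : ι → ℝ} (he : ∀ x, 0 < e x) (f : ι → ℝ) (z : ι) :
    Integrable (fun v => Yf A (WV E e v) f z) m := by
  refine Integrable.mono' (integrable_const (2 * ∑ a, (f a - f z) ^ 2))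
    (measurable_Yf_WV E e f z).aestronglyMeasurable (Eventually.of_forall fun v => ?_)
  rw [Real.norm_eq_abs, abs_of_nonneg (Yf_nonneg (WV_neg he v) f z)]
  exact Yf_le hA (WV_neg he v) f z

theorem integrable_dEn (hA : A.IsSymm) (m : Measure (ι → ℝ)) [IsFiniteMeasure m] (E : ℝ)
    {e : ι → ℝ} (he : ∀ x, 0 < e x) (f : ι → ℝ) (z : ι) :
    Integrable (fun v => dEn A (WV E e v) f z) m := by
  obtain ⟨b, hb, hbe⟩ : ∃ b : ℝ, 0 < b ∧ ∀ x, b ≤ e x := by
    obtain ⟨x₀, hx₀⟩ := @Finite.exists_min _ _ _ ⟨z⟩ _ e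
    exact ⟨e x₀, he x₀, hx₀⟩
  obtain ⟨C, hC0, hC⟩ := dEn_bounded (A := A) (H := ∑ y, e y) hA hb f z
  refine Integrable.mono' (integrable_const C)
    (measurable_dEn_Wp (a := fun (v : ι → ℝ) x => v x - E)
      (h := fun _ => e) (fun x => measurable_coord_sub E x) (fun x => measurable_const) f
      z).aestronglyMeasurable (Eventually.of_forall fun v => ?_)
  rw [Real.norm_eq_abs]
  exact hC _ _ hbe fun y => Finset.single_le_sum (f := e) (fun y _ => (he y).le)
    (Finset.mem_univ y)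

theorem integrable_Mf (hA : A.IsSymm) (m : Measure (ι → ℝ)) [IsFiniteMeasure m] (E : ℝ)
    {e : ι → ℝ} (he : ∀ x, 0 < e x) (f : ι → ℝ) (z : ι) :
    Integrable (fun v => Mf A (WV E e v) f z) m := by
  refine Integrable.mono' (integrable_const ((e z)⁻¹ * ∑ a, (f a - f z) ^ 2))
    (measurable_Mf_WV E e f z).aestronglyMeasurable (Eventually.of_forall fun v => ?_)
  rw [Real.norm_eq_abs, abs_of_nonneg (Mf_nonneg (WV_neg he v) f z), Mf, Finset.mul_sum]
  refine Finset.sum_le_sum fun a _ => ?_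
  have h1 := e_mul_KK_mul_e_le hA (WV_neg (E := E) he v) z a
  have h2 : -(WV E e v z).im = e z := by rw [WV_eq_Wp, Wp_im, neg_neg]
  rw [h2] at h1
  have h3 : (-(WV E e v a).im) * KK A (WV E e v) z a ≤ (e z)⁻¹ := by
    rw [← one_div, le_div_iff₀ (he z)]
    linarith
  exact mul_le_mul_of_nonneg_right h3 (sq_nonneg _)

end gen

/-! ### chapter A under the product law -/

section cost

variable {ι : Type} [Fintype ι] [DecidableEq ι] {A : Matrix ι ι ℝ}

/-- **B3** -/
theorem Ex_neg_dEn_le (hA : A.IsSymm) (ν : ι → Measure ℝ) [∀ x, IsProbabilityMeasure (ν x)]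
    {E : ℝ} {e : ι → ℝ} (he : ∀ x, 0 < e x) (f : ι → ℝ) (x : ι) {C : ℝ}
    (hC : CostLe E C (ν x)) :
    Ex ν E e (fun W => -dEn A W f x) ≤ C * Ex ν E e (fun W => Yf A W f x) := by
  have hint := (integrable_dEn hA (Measure.pi ν) E he f x).neg
  have hmp := MAff.measurePreserving_resample ν x
  have hf' : Integrable (fun p : (ι → ℝ) × ℝ => -dEn A (WV E e (Function.update p.1 x p.2)) f x)
      ((Measure.pi ν).prod (ν x)) := hmp.integrable_comp_of_integrable hint
  unfold Ex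
  have h1 := integral_resample' ν x _ hint
  simp only [Pi.neg_apply] at h1
  rw [h1, ← integral_const_mul]
  refine integral_mono hf'.integral_prod_left ((integrable_Yf hA _ E he f x).const_mul C)
    fun c => ?_
  have h2 := hC ι A (WV E e c) f x hA (WV_neg he c)
  show ∫ t, -dEn A (WV E e (Function.update c x t)) f x ∂(ν x) ≤ C * Yf A (WV E e c) f x
  rw [integral_neg]
  simp only [WV_update]
  exact h2

variable {Λ : Type*} [Fintype Λ] {p : Λ → ℝ} {ν : Λ → Measure ℝ} {E : ℝ}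
  {κ : Type*} [Fintype κ] {f : κ → ι → ℝ}

/-- the cost of the flow in terms of the off-resonant energies; `C k` is needed only for labels
which carry weight -/
theorem CostG_le (hA : A.IsSymm) [∀ k, IsProbabilityMeasure (ν k)] (hp : ∀ k, 0 ≤ p k)
    {e w : (ι → Λ) → ι → ℝ} (he : ∀ l x, 0 < e l x) (hw0 : ∀ l x, 0 ≤ w l x) {C : Λ → ℝ}
    (hC : ∀ l x, w l x ≠ 0 → CostLe E (C (l x)) (ν (l x))) :
    CostG A p ν E f e w ≤ ∑ l : ι → Λ, (∏ x, p (l x)) *
      ∑ x, (w l x * C (l x)) * ∑ k, Ex (fun x => ν (l x)) E (e l) (fun W => Yf A W (f k) x) := by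
  unfold CostG AvG
  refine Finset.sum_le_sum fun l _ => mul_le_mul_of_nonneg_left ?_
    (Finset.prod_nonneg fun x _ => hp _)
  have h1 : Ex (fun x => ν (l x)) E (e l) (fun W => ∑ x, w l x * ∑ k, -dEn A W (f k) x) =
      ∑ x, w l x * ∑ k, Ex (fun x => ν (l x)) E (e l) (fun W => -dEn A W (f k) x) := by
    unfold Ex
    rw [integral_finset_sum]
    · refine Finset.sum_congr rfl fun x _ => ?_
      rw [integral_const_mul, integral_finset_sum]
      intro k _
      exact (integrable_dEn hA _ E (he l) (f k) x).neg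
    · intro x _
      exact (integrable_finset_sum _ fun k _ =>
        (integrable_dEn hA _ E (he l) (f k) x).neg).const_mul _
  rw [h1]
  refine Finset.sum_le_sum fun x _ => ?_
  by_cases hx : w l x = 0
  · rw [hx]
    simp
  · rw [mul_assoc]
    refine mul_le_mul_of_nonneg_left ?_ (hw0 l x)
    rw [Finset.mul_sum]
    exact Finset.sum_le_sum fun k _ =>
      Ex_neg_dEn_le hA (fun x => ν (l x)) (he l) (f k) x (hC l x hx)

end cost

/-! ### `lintegral` forms -/

section lint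

variable {ι : Type*} [Fintype ι] [DecidableEq ι] {A : Matrix ι ι ℝ}
  {Λ : Type*} [Fintype Λ] {p : Λ → ℝ} {ν : Λ → Measure ℝ} {E : ℝ}
  {κ : Type*} [Fintype κ] {f : κ → ι → ℝ}

theorem ofReal_Ex_Yf (hA : A.IsSymm) (m : ι → Measure ℝ) [∀ x, IsProbabilityMeasure (m x)]
    {e : ι → ℝ} (he : ∀ x, 0 < e x) (g : ι → ℝ) (x : ι) :
    ENNReal.ofReal (Ex m E e fun W => Yf A W g x) =
      ∫⁻ v, ENNReal.ofReal (Yf A (WV E e v) g x) ∂(Measure.pi m) := by
  unfold Ex
  exact ofReal_integral_eq_lintegral_ofReal (integrable_Yf hA _ E he g x)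
    (Eventually.of_forall fun v => Yf_nonneg (WV_neg he v) g x)

theorem ofReal_Ex_Mf (hA : A.IsSymm) (m : ι → Measure ℝ) [∀ x, IsProbabilityMeasure (m x)]
    {e : ι → ℝ} (he : ∀ x, 0 < e x) (g : ι → ℝ) (x : ι) :
    ENNReal.ofReal (Ex m E e fun W => Mf A W g x) =
      ∫⁻ v, ENNReal.ofReal (Mf A (WV E e v) g x) ∂(Measure.pi m) := by
  unfold Ex
  exact ofReal_integral_eq_lintegral_ofReal (integrable_Mf hA _ E he g x)
    (Eventually.of_forall fun v => Mf_nonneg (WV_neg he v) g x)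

/-- the functional is the weighted sum of the `Mf` -/
theorem PhiG_eq_sum_Mf (hA : A.IsSymm) [∀ k, IsProbabilityMeasure (ν k)]
    {e : (ι → Λ) → ι → ℝ} (he : ∀ l x, 0 < e l x) :
    PhiG A p ν E f e = ∑ l : ι → Λ, (∏ x, p (l x)) *
      ∑ x, e l x * ∑ k, Ex (fun x => ν (l x)) E (e l) (fun W => Mf A W (f k) x) := by
  unfold PhiG AvG
  refine Finset.sum_congr rfl fun l _ => ?_
  congr 1
  have h0 : ∀ v : ι → ℝ, ∑ k, En A (WV E (e l) v) (f k) =
      ∑ x, e l x * ∑ k, Mf A (WV E (e l) v) (f k) x := by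
    intro v
    simp_rw [Finset.mul_sum]
    rw [Finset.sum_comm]
    refine Finset.sum_congr rfl fun k _ => ?_
    rw [En_eq_sum_Mf]
    refine Finset.sum_congr rfl fun x _ => ?_
    rw [WV_eq_Wp, Wp_im, neg_neg]
  unfold Ex
  simp only [h0]
  rw [integral_finset_sum]
  · refine Finset.sum_congr rfl fun x _ => ?_
    rw [integral_const_mul, integral_finset_sum]
    intro k _
    exact integrable_Mf hA _ E (he l) (f k) x
  · intro x _
    exact (integrable_finset_sum _ fun k _ => integrable_Mf hA _ E (he l) (f k) x).const_mul _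

end lint

section bridge

variable {ι : Type} [Fintype ι] [DecidableEq ι] {A : Matrix ι ι ℝ}
  {Λ : Type*} [Fintype Λ] {p : Λ → ℝ} {ν : Λ → Measure ℝ} {E : ℝ}
  {κ : Type*} [Fintype κ] {f : κ → ι → ℝ}

theorem ofReal_sum_prod {w : (ι → Λ) → ι → ℝ} (hp : ∀ k, 0 ≤ p k) (hw : ∀ l x, 0 ≤ w l x)
    {F : (ι → Λ) → ι → κ → ℝ} (hF : ∀ l x k, 0 ≤ F l x k) :
    ENNReal.ofReal (∑ l : ι → Λ, (∏ x, p (l x)) * ∑ x, w l x * ∑ k, F l x k) =
      ∑ l : ι → Λ, ENNReal.ofReal (∏ x, p (l x)) *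
        ∑ x, ENNReal.ofReal (w l x) * ∑ k, ENNReal.ofReal (F l x k) := by
  have h1 : ∀ l x, 0 ≤ ∑ k, F l x k := fun l x => Finset.sum_nonneg fun k _ => hF l x k
  have h2 : ∀ l, 0 ≤ ∑ x, w l x * ∑ k, F l x k := fun l =>
    Finset.sum_nonneg fun x _ => mul_nonneg (hw l x) (h1 l x)
  have h3 : ∀ l : ι → Λ, 0 ≤ ∏ x, p (l x) := fun l => Finset.prod_nonneg fun x _ => hp _
  rw [ENNReal.ofReal_sum_of_nonneg fun l _ => mul_nonneg (h3 l) (h2 l)]
  refine Finset.sum_congr rfl fun l _ => ?_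
  rw [ENNReal.ofReal_mul (h3 l),
    ENNReal.ofReal_sum_of_nonneg fun x _ => mul_nonneg (hw l x) (h1 l x)]
  congr 1
  refine Finset.sum_congr rfl fun x _ => ?_
  rw [ENNReal.ofReal_mul (hw l x), ENNReal.ofReal_sum_of_nonneg fun k _ => hF l x k]

/-- **B4**: the hub inequality may be proved in `lintegral` form -/
theorem CostG_le_of_lintegral (hA : A.IsSymm) [∀ k, IsProbabilityMeasure (ν k)]
    (hp : ∀ k, 0 ≤ p k) {e w : (ι → Λ) → ι → ℝ} (he : ∀ l x, 0 < e l x)
    (hw0 : ∀ l x, 0 ≤ w l x) {C : Λ → ℝ} (hC0 : ∀ k, 0 ≤ C k)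
    (hC : ∀ l x, w l x ≠ 0 → CostLe E (C (l x)) (ν (l x))) {r c : ℝ} (hr : 0 ≤ r) (hc : 0 ≤ c)
    (H : ∑ l : ι → Λ, ENNReal.ofReal (∏ x, p (l x)) * ∑ x, ENNReal.ofReal (w l x * C (l x)) *
        ∑ k, ∫⁻ v, ENNReal.ofReal (Yf A (WV E (e l) v) (f k) x) ∂(Measure.pi fun x => ν (l x)) ≤
      ENNReal.ofReal r * (∑ l : ι → Λ, ENNReal.ofReal (∏ x, p (l x)) *
        ∑ x, ENNReal.ofReal (e l x) *
          ∑ k, ∫⁻ v, ENNReal.ofReal (Mf A (WV E (e l) v) (f k) x)
            ∂(Measure.pi fun x => ν (l x)) + ENNReal.ofReal c)) :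
    CostG A p ν E f e w ≤ r * (PhiG A p ν E f e + c) := by
  refine (CostG_le hA hp he hw0 hC).trans ?_
  have hPhi0 : 0 ≤ PhiG A p ν E f e := PhiG_nonneg hp fun l x => (he l x).le
  rw [← ENNReal.ofReal_le_ofReal_iff (mul_nonneg hr (add_nonneg hPhi0 hc)),
    ENNReal.ofReal_mul hr, ENNReal.ofReal_add hPhi0 hc, PhiG_eq_sum_Mf hA he]
  rw [ofReal_sum_prod hp (fun l x => mul_nonneg (hw0 l x) (hC0 _)) fun l x k =>
      Ex_nonneg _ _ _ fun v => Yf_nonneg (WV_neg (he l) v) _ _,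
    ofReal_sum_prod hp (fun l x => (he l x).le) fun l x k =>
      Ex_nonneg _ _ _ fun v => Mf_nonneg (WV_neg (he l) v) _ _]
  simp_rw [ofReal_Ex_Yf hA _ (he _), ofReal_Ex_Mf hA _ (he _)]
  exact H

end bridge

end Vale.Agent.P365.J376
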