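import Vale.Agent.P365.J376.Main
import Vale.Agent.P365.J376.Bridge
import Vale.Agent.P365.T1.StartD

/-!
# P365-T1, composition, design v3: the skeleton of the stages.

Labels, patterns on nested grids, weights (`1` at the centres of the matched blocks, one bulk
weight at every other site with a smooth law), stages, START; everything except the two hub
inequalities.
-/

set_option linter.all false

namespace Vale.Agent.P365.J376

open P365L P365O P365T1 P365L.TL Matrix Complex MeasureTheory Filter Topology Set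
open scoped ComplexConjugate ENNReal

/-- data of the chain, design v3 -/
structure V3 where
  Λ : Type
  fin : Fintype Λ
  dec : DecidableEq Λ
  /-- the good label -/
  good : Λ
  /-- labels with the smooth law (good and marks) -/
  mov : Λ → Prop
  /-- last family -/
  I : ℕ
  /-- block sides -/
  m : ℕ → ℕ
  /-- pattern of family `i` in local coordinates -/
  pat : ℕ → Loc → Λ
  /-- centre of the cell of family `i` -/
  y : ℕ → Loc
  /-- bulk weight exponent -/
  a : ℕ → ℝ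
  /-- strength of family `i` -/
  e0 : ℕ → ℝ
  /-- final factors of the stages -/
  t : ℕ → ℝ
  /-- background absorption -/
  b : ℝ
  p : Λ → ℝ
  ν : Λ → Measure ℝ

attribute [instance] V3.fin V3.dec

variable (D : V3) {N : ℕ} [NeZero N]

/-- the block of family `i` which contains `x` carries its pattern -/
def V3.Mat (i : ℕ) (l : Tor N → D.Λ) (x : Tor N) : Prop :=
  ∀ z, bi (D.m i) z = bi (D.m i) x → l z = D.pat i (lc (D.m i) z)

/-- `x` is the centre of a matched block of family `i` -/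
def V3.cen (i : ℕ) (l : Tor N → D.Λ) (x : Tor N) : Prop :=
  D.Mat i l x ∧ lc (D.m i) x = D.y i

open Classical in
/-- weight of family `i` -/
noncomputable def V3.wf (i : ℕ) (l : Tor N → D.Λ) (x : Tor N) : ℝ :=
  if D.cen i l x then 1 else if D.mov (l x) then Real.exp (-(D.a i)) else 0

/-- moving profile of stage `i` (stage `0` = bulk, stage `i + 1` = family `i`) -/
noncomputable def V3.Ws : ℕ → (Tor N → D.Λ) → Tor N → ℝ
  | 0, l, x => if l x = D.good then 32 else 0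
  | i + 1, l, x => D.t i * V3.Ws i l x + D.e0 i * D.wf i l x

/-- static profile of stage `i` -/
noncomputable def V3.us (i : ℕ) (l : Tor N → D.Λ) (x : Tor N) : ℝ :=
  D.b + ∑ j ∈ Finset.Ico i (D.I + 1), D.e0 j * D.wf j l x

/-- profile of stage `i` at strength `s` -/
noncomputable def V3.prof (i : ℕ) (s : ℝ) (l : Tor N → D.Λ) (x : Tor N) : ℝ :=
  D.us i l x + s * D.Ws i l x

/-- standing conditions -/
structure V3.Ok (D : V3) (ρ : Measure ℝ) : Prop where
  b_pos : 0 < D.b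
  prob : ∀ k, IsProbabilityMeasure (D.ν k)
  p_nonneg : ∀ k, 0 ≤ D.p k
  p_sum : ∑ k, D.p k = 1
  mix : ∑ k, ENNReal.ofReal (D.p k) • D.ν k = ρ
  p_good : 1 - D.p D.good ≤ 1 / 8192
  mov_good : D.mov D.good
  mov_cen : ∀ i ≤ D.I, D.mov (D.pat i (D.y i))
  e0_pos : ∀ i ≤ D.I, 0 < D.e0 i
  e0_le : ∀ i ≤ D.I, D.e0 i ≤ 1
  a_nonneg : ∀ i ≤ D.I, 0 ≤ D.a i
  t_pos : ∀ i ≤ D.I + 1, 0 < D.t i
  t_le : ∀ i ≤ D.I + 1, D.t i ≤ 1
  t_small : ∀ i ≤ D.I, D.t i * 33 ≤ D.e0 i * Real.exp (-(D.a i))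
  t_last : D.t (D.I + 1) * 33 ≤ D.b

variable {D} {ρ : Measure ℝ}

theorem V3.wf_nonneg (i : ℕ) (l : Tor N → D.Λ) (x : Tor N) : 0 ≤ D.wf i l x := by
  unfold V3.wf
  split_ifs
  · exact zero_le_one
  · exact (Real.exp_pos _).le
  · exact le_rfl

theorem V3.Ok.wf_le (h : D.Ok ρ) {i : ℕ} (hi : i ≤ D.I) (l : Tor N → D.Λ) (x : Tor N) :
    D.wf i l x ≤ 1 := by
  unfold V3.wf
  split_ifs
  · exact le_rfl
  · exact Real.exp_le_one_iff.2 (by linarith [h.a_nonneg i hi])
  · exact zero_le_one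

theorem V3.Ok.Ws_nonneg (h : D.Ok ρ) {i : ℕ} (hi : i ≤ D.I + 1) (l : Tor N → D.Λ)
    (x : Tor N) : 0 ≤ D.Ws i l x := by
  induction i with
  | zero =>
    simp only [V3.Ws]
    split_ifs <;> norm_num
  | succ i ih =>
    simp only [V3.Ws]
    have h1 := h.t_pos i (by omega)
    have h2 := h.e0_pos i (by omega)
    have h3 := ih (by omega)
    have h4 := D.wf_nonneg i l x
    positivity

theorem V3.Ok.Ws_le (h : D.Ok ρ) {i : ℕ} (hi : i ≤ D.I + 1) (l : Tor N → D.Λ)
    (x : Tor N) : D.Ws i l x ≤ 33 := by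
  induction i with
  | zero =>
    simp only [V3.Ws]
    split_ifs <;> norm_num
  | succ i ih =>
    simp only [V3.Ws]
    have h1 := h.t_pos i (by omega)
    have h2 := h.e0_pos i (by omega)
    have h3 := ih (by omega)
    have h4 := D.wf_nonneg i l x
    have h5 := h.wf_le (show i ≤ D.I by omega) l x
    have h6 := h.e0_le i (by omega)
    have h7 := h.t_small i (by omega)
    have h8 : Real.exp (-(D.a i)) ≤ 1 :=
      Real.exp_le_one_iff.2 (by linarith [h.a_nonneg i (show i ≤ D.I by omega)])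
    have h9 : D.t i * D.Ws i l x ≤ D.t i * 33 := mul_le_mul_of_nonneg_left h3 h1.le
    have h10 : D.e0 i * D.wf i l x ≤ 1 * 1 := mul_le_mul h6 h5 h4 zero_le_one
    have h11 : D.e0 i * Real.exp (-(D.a i)) ≤ 1 * 1 :=
      mul_le_mul h6 h8 (Real.exp_pos _).le zero_le_one
    linarith

theorem V3.Ok.cen_mov (h : D.Ok ρ) {i : ℕ} (hi : i ≤ D.I) {l : Tor N → D.Λ} {x : Tor N}
    (hc : D.cen i l x) : D.mov (l x) := by
  rw [hc.1 x rfl, hc.2]
  exact h.mov_cen i hi

/-- sites which are not movable carry no moving weight -/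
theorem V3.Ok.Ws_of_not_mov (h : D.Ok ρ) {i : ℕ} (hi : i ≤ D.I + 1) {l : Tor N → D.Λ}
    {x : Tor N} (hx : ¬ D.mov (l x)) : D.Ws i l x = 0 := by
  induction i with
  | zero =>
    simp only [V3.Ws]
    rw [if_neg]
    intro h1
    exact hx (h1 ▸ h.mov_good)
  | succ i ih =>
    simp only [V3.Ws]
    rw [ih (by omega), V3.wf, if_neg fun hc => hx (h.cen_mov (by omega) hc), if_neg hx]
    simp

theorem V3.Ok.wf_of_not_mov (h : D.Ok ρ) {i : ℕ} (hi : i ≤ D.I) {l : Tor N → D.Λ}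
    {x : Tor N} (hx : ¬ D.mov (l x)) : D.wf i l x = 0 := by
  rw [V3.wf, if_neg fun hc => hx (h.cen_mov hi hc), if_neg hx]

/-- bulk weights at stage `i + 1` -/
theorem V3.Ok.Ws_bulk (h : D.Ok ρ) {i : ℕ} (hi : i ≤ D.I) {l : Tor N → D.Λ}
    {x : Tor N} (hx : D.mov (l x)) (hc : ¬ D.cen i l x) :
    D.e0 i * Real.exp (-(D.a i)) ≤ D.Ws (i + 1) l x ∧
      D.Ws (i + 1) l x ≤ 2 * (D.e0 i * Real.exp (-(D.a i))) := by
  have h1 : D.wf i l x = Real.exp (-(D.a i)) := by rw [V3.wf, if_neg hc, if_pos hx]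
  simp only [V3.Ws]
  rw [h1]
  have h2 := h.Ws_nonneg (show i ≤ D.I + 1 by omega) l x
  have h3 := h.Ws_le (show i ≤ D.I + 1 by omega) l x
  have h4 := h.t_pos i (by omega)
  have h5 := h.t_small i hi
  have h6 : D.t i * D.Ws i l x ≤ D.t i * 33 := mul_le_mul_of_nonneg_left h3 h4.le
  have h7 : 0 ≤ D.t i * D.Ws i l x := mul_nonneg h4.le h2
  constructor <;> linarith

/-- weight of the centres at stage `i + 1` -/
theorem V3.Ok.Ws_cen (h : D.Ok ρ) {i : ℕ} (hi : i ≤ D.I) {l : Tor N → D.Λ}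
    {x : Tor N} (hc : D.cen i l x) :
    D.e0 i ≤ D.Ws (i + 1) l x ∧ D.Ws (i + 1) l x ≤ 2 * D.e0 i := by
  have h1 : D.wf i l x = 1 := by rw [V3.wf, if_pos hc]
  simp only [V3.Ws]
  rw [h1]
  have h2 := h.Ws_nonneg (show i ≤ D.I + 1 by omega) l x
  have h3 := h.Ws_le (show i ≤ D.I + 1 by omega) l x
  have h4 := h.t_pos i (by omega)
  have h5 := h.t_small i hi
  have h6 : D.t i * D.Ws i l x ≤ D.t i * 33 := mul_le_mul_of_nonneg_left h3 h4.le
  have h7 : 0 ≤ D.t i * D.Ws i l x := mul_nonneg h4.le h2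
  have h8 : Real.exp (-(D.a i)) ≤ 1 := Real.exp_le_one_iff.2 (by linarith [h.a_nonneg i hi])
  have h9 : D.e0 i * Real.exp (-(D.a i)) ≤ D.e0 i * 1 :=
    mul_le_mul_of_nonneg_left h8 (h.e0_pos i hi).le
  constructor <;> linarith

theorem V3.Ok.us_ge (h : D.Ok ρ) (i : ℕ) (l : Tor N → D.Λ) (x : Tor N) :
    D.b ≤ D.us i l x := by
  unfold V3.us
  refine le_add_of_nonneg_right (Finset.sum_nonneg fun j hj => ?_)
  rw [Finset.mem_Ico] at hj
  exact mul_nonneg (h.e0_pos j (by omega)).le (D.wf_nonneg j l x)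

theorem V3.us_last (l : Tor N → D.Λ) (x : Tor N) : D.us (D.I + 1) l x = D.b := by
  simp [V3.us]

theorem V3.us_succ {i : ℕ} (hi : i ≤ D.I) (l : Tor N → D.Λ) (x : Tor N) :
    D.us i l x = D.us (i + 1) l x + D.e0 i * D.wf i l x := by
  unfold V3.us
  rw [Finset.sum_eq_sum_Ico_succ_bot (show i < D.I + 1 by omega)]
  ring

theorem V3.link {i : ℕ} (hi : i < D.I + 1) (l : Tor N → D.Λ) (x : Tor N) :
    D.us i l x + D.t i * D.Ws i l x = D.us (i + 1) l x + D.Ws (i + 1) l x := by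
  rw [V3.us_succ (show i ≤ D.I by omega)]
  simp only [V3.Ws]
  ring

theorem V3.Ok.prof_ge (h : D.Ok ρ) {i : ℕ} (hi : i ≤ D.I + 1) {s : ℝ} (hs : 0 ≤ s)
    (l : Tor N → D.Λ) (x : Tor N) : D.b ≤ D.prof i s l x := by
  have h1 := h.us_ge i l x
  have h2 := mul_nonneg hs (h.Ws_nonneg hi l x)
  unfold V3.prof
  linarith

theorem V3.Ok.prof_pos (h : D.Ok ρ) {i : ℕ} (hi : i ≤ D.I + 1) {s : ℝ} (hs : 0 ≤ s)
    (l : Tor N → D.Λ) (x : Tor N) : 0 < D.prof i s l x :=
  h.b_pos.trans_le (h.prof_ge hi hs l x)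

theorem V3.Ok.s_mul_Ws_le (h : D.Ok ρ) (i : ℕ) (s : ℝ) (l : Tor N → D.Λ) (x : Tor N) :
    s * D.Ws i l x ≤ D.prof i s l x := by
  have h1 := h.us_ge i l x
  have h2 := h.b_pos
  unfold V3.prof
  linarith

/-- the set of sites which are not good -/
noncomputable def V3.badS (D : V3) (l : Tor N → D.Λ) : Finset (Tor N) :=
  Finset.univ.filter fun x => l x ≠ D.good

/-- **START** -/
theorem V3.Ok.start (h : D.Ok ρ) (E : ℝ) :
    PhiG (AT N) D.p D.ν E (phi N) (fun l x => D.us 0 l x + D.Ws 0 l x) ≤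
      88 * Fintype.card (Tor N) := by
  classical
  haveI := h.prob
  have h1 : ∑ l : Tor N → D.Λ, (∏ x, D.p (l x)) * FB N (D.badS l) ≤
      22 * Fintype.card (Tor N) := by
    refine FB_sum_labels (K := Empty) (fun _ k => D.p k) (fun _ => h.p_nonneg)
      (fun _ => h.p_sum) D.good (fun k => k.elim) (fun k => k.elim) (fun k => k.elim)
      (τ := 1 / 8192) (by norm_num) (by norm_num) (fun _ => h.p_good) (fun k => k.elim) ?_ ?_
    · intro x
      rw [Finset.univ_eq_empty, Finset.sum_empty]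
      norm_num
    · intro L x hx
      left
      simpa [V3.badS] using hx
  have hEx : ∀ l : Tor N → D.Λ, Ex (fun x => D.ν (l x)) E (fun x => D.us 0 l x + D.Ws 0 l x)
      (fun W => ∑ k : Fin 4, En (AT N) W (phi N k)) ≤ 4 * FB N (D.badS l) := by
    intro l
    have him : ∀ v x, (WV E (fun x => D.us 0 l x + D.Ws 0 l x) v x).im < 0 := by
      intro v x
      rw [P365T1.WV_im]
      have := h.us_ge 0 l x
      have := h.Ws_nonneg (Nat.zero_le _) l x
      have := h.b_pos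
      linarith
    refine Ex_le (fun v => Finset.sum_nonneg fun k _ => P365T1.En_nonneg' (him v) _) fun v => ?_
    have h3 : ∀ k : Fin 4, En (AT N) (WV E (fun x => D.us 0 l x + D.Ws 0 l x) v) (phi N k) ≤
        FB N (D.badS l) := by
      intro k
      refine En_le_FB (him v) _ (fun x hx => ?_) (phi_lip k)
      rw [P365T1.WV_im, neg_neg]
      have hg : l x = D.good := by
        by_contra hcon
        exact hx (by simp [V3.badS, hcon])
      have h4 := h.us_ge 0 l x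
      have h5 : D.Ws 0 l x = 32 := by
        simp only [V3.Ws]
        rw [if_pos hg]
      have := h.b_pos
      linarith
    calc ∑ k : Fin 4, En (AT N) (WV E (fun x => D.us 0 l x + D.Ws 0 l x) v) (phi N k)
        ≤ ∑ k : Fin 4, FB N (D.badS l) := Finset.sum_le_sum fun k _ => h3 k
      _ = 4 * FB N (D.badS l) := by simp
  unfold PhiG AvG
  calc ∑ l : Tor N → D.Λ, (∏ x, D.p (l x)) * Ex (fun x => D.ν (l x)) E
        (fun x => D.us 0 l x + D.Ws 0 l x) (fun W => ∑ k : Fin 4, En (AT N) W (phi N k))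
      ≤ ∑ l : Tor N → D.Λ, (∏ x, D.p (l x)) * (4 * FB N (D.badS l)) :=
        Finset.sum_le_sum fun l _ => mul_le_mul_of_nonneg_left (hEx l)
          (Finset.prod_nonneg fun x _ => h.p_nonneg _)
    _ = 4 * ∑ l : Tor N → D.Λ, (∏ x, D.p (l x)) * FB N (D.badS l) := by
        rw [Finset.mul_sum]
        exact Finset.sum_congr rfl fun l _ => by ring
    _ ≤ 4 * (22 * Fintype.card (Tor N)) := mul_le_mul_of_nonneg_left h1 (by norm_num)
    _ = 88 * Fintype.card (Tor N) := by ring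

/-- stage `0` (bulk): rate `10 / s` -/
theorem V3.Ok.hub_zero (h : D.Ok ρ) (E : ℝ) {c s : ℝ} (hc : 0 ≤ c) (hs : 0 < s) :
    CostG (AT N) D.p D.ν E (phi N) (fun l x => D.us 0 l x + s * D.Ws 0 l x) (D.Ws 0) ≤
      10 / s * (PhiG (AT N) D.p D.ν E (phi N) (fun l x => D.us 0 l x + s * D.Ws 0 l x) + c) := by
  haveI := h.prob
  refine (CostG_triv (AT_symm N) h.p_nonneg hs (fun l x => h.prof_pos (Nat.zero_le _) hs.le l x)
    (fun l x => h.Ws_nonneg (Nat.zero_le _) l x) (fun l x => h.s_mul_Ws_le 0 s l x)).trans ?_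
  exact mul_le_mul_of_nonneg_left (le_add_of_nonneg_right hc) (by positivity)

/-! ### the two hub inequalities -/

/-- (HC) centre hub of family `i` at stage `i + 1`, strength `s` -/
def V3.HC (D : V3) (N : ℕ) [NeZero N] (E : ℝ) (i : ℕ) (s ηc : ℝ) : Prop :=
  ∀ (l : Tor N → D.Λ) (x : Tor N), D.cen i l x → ∀ k : Fin 4,
    ∫⁻ v, ENNReal.ofReal (Yf (AT N) (WV E (D.prof (i + 1) s l) v) (phi N k) x)
      ∂(Measure.pi fun x => D.ν (l x)) ≤
    ENNReal.ofReal ηc *
      ∫⁻ v, ENNReal.ofReal (Mf (AT N) (WV E (D.prof (i + 1) s l) v) (phi N k) x)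
        ∂(Measure.pi fun x => D.ν (l x))

open Classical in
/-- (HB) bulk hub at stage `i + 1`, strength `s` -/
def V3.HB (D : V3) (N : ℕ) [NeZero N] (E : ℝ) (i : ℕ) (s ηb c : ℝ) : Prop :=
  ∑ l : Tor N → D.Λ, ENNReal.ofReal (∏ x, D.p (l x)) *
    ∑ x, ENNReal.ofReal (if D.mov (l x) ∧ ¬ D.cen i l x then D.Ws (i + 1) l x else 0) *
      ∑ k : Fin 4, ∫⁻ v, ENNReal.ofReal (Yf (AT N) (WV E (D.prof (i + 1) s l) v) (phi N k) x)
        ∂(Measure.pi fun x => D.ν (l x)) ≤
  ENNReal.ofReal (ηb / s) * (∑ l : Tor N → D.Λ, ENNReal.ofReal (∏ x, D.p (l x)) *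
    ∑ x, ENNReal.ofReal (D.prof (i + 1) s l x) *
      ∑ k : Fin 4, ∫⁻ v, ENNReal.ofReal (Mf (AT N) (WV E (D.prof (i + 1) s l) v) (phi N k) x)
        ∂(Measure.pi fun x => D.ν (l x)) + ENNReal.ofReal c)

/-- **the hub of stage `i + 1` from (HC) and (HB)** -/
theorem V3.Ok.hub_succ (h : D.Ok ρ) (E : ℝ) {i : ℕ} (hi : i ≤ D.I) {s ηc ηb c Ca : ℝ}
    (hs : 0 < s) (hηc : 0 ≤ ηc) (hηb : 0 ≤ ηb) (hc : 0 ≤ c) (hCa : 0 ≤ Ca)
    (hcost : ∀ k, D.mov k → CostLe E Ca (D.ν k))
    (HC : D.HC N E i s ηc) (HB : D.HB N E i s ηb c) :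
    CostG (AT N) D.p D.ν E (phi N) (fun l x => D.us (i + 1) l x + s * D.Ws (i + 1) l x)
        (D.Ws (i + 1)) ≤
      Ca * (ηc + ηb) / s *
        (PhiG (AT N) D.p D.ν E (phi N) (fun l x => D.us (i + 1) l x + s * D.Ws (i + 1) l x) +
          c) := by
  classical
  haveI := h.prob
  have hi1 : i + 1 ≤ D.I + 1 := by omega
  refine CostG_le_of_lintegral (C := fun _ => Ca) (AT_symm N) h.p_nonneg
    (fun l x => h.prof_pos hi1 hs.le l x)
    (fun l x => h.Ws_nonneg hi1 l x) (fun _ => hCa) (fun l x hx => hcost _ ?_)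
    (by positivity) hc ?_
  · by_contra hcon
    exact hx (h.Ws_of_not_mov hi1 hcon)
  -- split the weight
  set Y : (Tor N → D.Λ) → Tor N → ℝ≥0∞ := fun l x =>
    ∑ k : Fin 4, ∫⁻ v, ENNReal.ofReal (Yf (AT N) (WV E (D.prof (i + 1) s l) v) (phi N k) x)
      ∂(Measure.pi fun x => D.ν (l x)) with hY
  set M : (Tor N → D.Λ) → Tor N → ℝ≥0∞ := fun l x =>
    ∑ k : Fin 4, ∫⁻ v, ENNReal.ofReal (Mf (AT N) (WV E (D.prof (i + 1) s l) v) (phi N k) x)
      ∂(Measure.pi fun x => D.ν (l x)) with hM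
  set P : (Tor N → D.Λ) → ℝ≥0∞ := fun l => ENNReal.ofReal (∏ x, D.p (l x)) with hP
  set R : ℝ≥0∞ := ∑ l : Tor N → D.Λ, P l * ∑ x, ENNReal.ofReal (D.prof (i + 1) s l x) * M l x
    with hR
  have hcen : ∀ l x, D.cen i l x → Y l x ≤ ENNReal.ofReal ηc * M l x := by
    intro l x hlx
    rw [hY, hM, Finset.mul_sum]
    exact Finset.sum_le_sum fun k _ => HC l x hlx k
  have hsplit : ∀ l x, ENNReal.ofReal (D.Ws (i + 1) l x * Ca) * Y l x ≤
      ENNReal.ofReal (Ca * ηc / s) * (ENNReal.ofReal (D.prof (i + 1) s l x) * M l x) +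
      ENNReal.ofReal Ca *
        (ENNReal.ofReal (if D.mov (l x) ∧ ¬ D.cen i l x then D.Ws (i + 1) l x else 0) *
          Y l x) := by
    intro l x
    have hW0 := h.Ws_nonneg hi1 l x
    by_cases hlx : D.cen i l x
    · refine le_trans ?_ le_self_add
      calc ENNReal.ofReal (D.Ws (i + 1) l x * Ca) * Y l x
          ≤ ENNReal.ofReal (D.Ws (i + 1) l x * Ca) * (ENNReal.ofReal ηc * M l x) :=
            mul_le_mul_right (hcen l x hlx) _
        _ = ENNReal.ofReal (D.Ws (i + 1) l x * Ca * ηc) * M l x := by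
            rw [← mul_assoc, ← ENNReal.ofReal_mul (mul_nonneg hW0 hCa)]
        _ ≤ ENNReal.ofReal (Ca * ηc / s * D.prof (i + 1) s l x) * M l x := by
            refine mul_le_mul_left (ENNReal.ofReal_le_ofReal ?_) _
            have h1 := h.s_mul_Ws_le (i + 1) s l x
            have h2 : 0 ≤ Ca * ηc := mul_nonneg hCa hηc
            rw [div_mul_eq_mul_div, le_div_iff₀ hs]
            nlinarith
        _ = _ := by
            rw [ENNReal.ofReal_mul (by positivity), mul_assoc]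
    · by_cases hmv : D.mov (l x)
      · rw [if_pos ⟨hmv, hlx⟩, mul_comm (D.Ws (i + 1) l x) Ca, ENNReal.ofReal_mul hCa,
          mul_assoc]
        exact le_add_self
      · rw [h.Ws_of_not_mov hi1 hmv]
        simp
  calc ∑ l : Tor N → D.Λ, P l * ∑ x, ENNReal.ofReal (D.Ws (i + 1) l x * Ca) * Y l x
      ≤ ∑ l : Tor N → D.Λ, P l * ∑ x,
        (ENNReal.ofReal (Ca * ηc / s) * (ENNReal.ofReal (D.prof (i + 1) s l x) * M l x) +
        ENNReal.ofReal Ca *
          (ENNReal.ofReal (if D.mov (l x) ∧ ¬ D.cen i l x then D.Ws (i + 1) l x else 0) *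
            Y l x)) := by
        gcongr with l _ x _
        exact hsplit l x
    _ = ENNReal.ofReal (Ca * ηc / s) * R + ENNReal.ofReal Ca *
        ∑ l : Tor N → D.Λ, P l * ∑ x,
          ENNReal.ofReal (if D.mov (l x) ∧ ¬ D.cen i l x then D.Ws (i + 1) l x else 0) *
            Y l x := by
        rw [hR, Finset.mul_sum, Finset.mul_sum, ← Finset.sum_add_distrib]
        refine Finset.sum_congr rfl fun l _ => ?_
        rw [Finset.sum_add_distrib, ← Finset.mul_sum, ← Finset.mul_sum]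
        ring
    _ ≤ ENNReal.ofReal (Ca * ηc / s) * R + ENNReal.ofReal Ca *
        (ENNReal.ofReal (ηb / s) * (R + ENNReal.ofReal c)) := by
        gcongr
        exact HB
    _ ≤ ENNReal.ofReal (Ca * ηc / s) * (R + ENNReal.ofReal c) +
        ENNReal.ofReal (Ca * ηb / s) * (R + ENNReal.ofReal c) := by
        refine add_le_add (mul_le_mul_right le_self_add _) (le_of_eq ?_)
        rw [← mul_assoc, ← ENNReal.ofReal_mul hCa, mul_div_assoc]
    _ = ENNReal.ofReal (Ca * (ηc + ηb) / s) * (R + ENNReal.ofReal c) := by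
        rw [← add_mul, ← ENNReal.ofReal_add (by positivity) (by positivity)]
        congr 2
        ring

/-- **the stages from (HC) and (HB)** -/
noncomputable def V3.Ok.stages (h : D.Ok ρ) (N : ℕ) [NeZero N] (E : ℝ) {C Ca : ℝ}
    (ηc ηb : ℕ → ℝ)
    (hηc : ∀ i ≤ D.I, 0 ≤ ηc i) (hηb : ∀ i ≤ D.I, 0 ≤ ηb i) (hC : 88 ≤ C) (hCa : 0 ≤ Ca)
    (hcost : ∀ k, D.mov k → CostLe E Ca (D.ν k))
    (HC : ∀ i ≤ D.I, ∀ s ∈ Ioo (D.t (i + 1)) 1, D.HC N E i s (ηc i))
    (HB : ∀ i ≤ D.I, ∀ s ∈ Ioo (D.t (i + 1)) 1, D.HB N E i s (ηb i) (C * (N : ℝ) ^ 2))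
    (hsum : 10 * Real.log (1 / D.t 0) + ∑ i ∈ Finset.range (D.I + 1),
      Ca * (ηc i + ηb i) * Real.log (1 / D.t (i + 1)) ≤ C) :
    Stages ρ E C D.b N where
  Λ := D.Λ
  fin := D.fin
  p := D.p
  ν := D.ν
  prob := h.prob
  p_nonneg := h.p_nonneg
  mix := h.mix
  n := D.I + 1
  u := D.us
  w := D.Ws
  t := D.t
  η := fun i => match i with
    | 0 => 10
    | i + 1 => Ca * (ηc i + ηb i)
  Wm := 33
  Wm_pos := by norm_num
  u_ge := fun i _ l x => h.us_ge i l x
  u_last := fun l x => D.us_last l x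
  w_nonneg := fun i hi l x => h.Ws_nonneg hi l x
  w_le := fun i hi l x => h.Ws_le hi l x
  t_pos := h.t_pos
  t_le := h.t_le
  link := fun i hi l x => V3.link hi l x
  start := by
    refine (h.start E).trans ?_
    rw [card_Tor_nat]
    push_cast
    exact mul_le_mul_of_nonneg_right hC (by positivity)
  hub := by
    intro i hi s hs
    have hs0 : 0 < s := (h.t_pos i hi).trans hs.1
    have hc : 0 ≤ C * (N : ℝ) ^ 2 := by
      have : 0 ≤ C := by linarith
      positivity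
    cases i with
    | zero => exact h.hub_zero E hc hs0
    | succ i =>
      have hi' : i ≤ D.I := by omega
      exact h.hub_succ E hi' hs0 (hηc i hi') (hηb i hi') hc hCa hcost (HC i hi' s hs)
        (HB i hi' s hs)
  last := by
    intro l x
    have h1 := h.Ws_le le_rfl l x
    have h2 := h.t_pos (D.I + 1) le_rfl
    have h3 := h.t_last
    have h4 : D.t (D.I + 1) * D.Ws (D.I + 1) l x ≤ D.t (D.I + 1) * 33 :=
      mul_le_mul_of_nonneg_left h1 h2.le
    linarith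
  sum_le := by
    rw [Finset.sum_range_succ']
    simp only
    linarith

end Vale.Agent.P365.J376
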