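import Mathlib.Analysis.Calculus.Deriv.MeanValue
import Mathlib.Analysis.SpecialFunctions.Pow.Deriv
import Mathlib.Analysis.SpecialFunctions.ExpDeriv
import Mathlib.Analysis.SpecialFunctions.Log.Basic

/-!
# P365 T1: the real variable lemma of the composition
-/

open Set Real

namespace Vale.Agent.P365.J376

variable {Φ Φ' : ℝ → ℝ}

/-- Gronwall with a constant rate. -/
theorem gron_const {a b K : ℝ} (hab : a ≤ b) (hc : ContinuousOn Φ (Icc a b))
    (hd : ∀ e ∈ Ioo a b, HasDerivAt Φ (Φ' e) e) (h : ∀ e ∈ Ioo a b, -Φ' e ≤ K * Φ e) :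
    Φ a ≤ Φ b * exp (K * (b - a)) := by
  have hmono : MonotoneOn (fun e => Φ e * exp (K * e)) (Icc a b) := by
    apply monotoneOn_of_deriv_nonneg (convex_Icc a b)
    · exact hc.mul (by fun_prop)
    · intro e he
      rw [interior_Icc] at he
      exact ((hd e he).differentiableAt.mul (by fun_prop)).differentiableWithinAt
    · intro e he
      rw [interior_Icc] at he
      have h1 : HasDerivAt (fun e => Φ e * exp (K * e))
          (Φ' e * exp (K * e) + Φ e * (exp (K * e) * (K * 1))) e :=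
        (hd e he).mul (((hasDerivAt_id e).const_mul K).exp)
      rw [h1.deriv]
      have h2 := h e he
      have h3 := exp_pos (K * e)
      nlinarith
  have h1 := hmono (left_mem_Icc.2 hab) (right_mem_Icc.2 hab) hab
  simp only at h1
  have h2 : Φ a = Φ a * exp (K * a) * exp (-(K * a)) := by
    rw [mul_assoc, ← exp_add]
    simp
  rw [h2]
  calc Φ a * exp (K * a) * exp (-(K * a)) ≤ Φ b * exp (K * b) * exp (-(K * a)) :=
        mul_le_mul_of_nonneg_right h1 (exp_pos _).le
    _ = Φ b * exp (K * (b - a)) := by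
        rw [mul_assoc, ← exp_add]
        congr 2
        ring

/-- Gronwall with the rate `η / e`. -/
theorem gron_inv {a b η : ℝ} (ha : 0 < a) (hab : a ≤ b) (hc : ContinuousOn Φ (Icc a b))
    (hd : ∀ e ∈ Ioo a b, HasDerivAt Φ (Φ' e) e) (h : ∀ e ∈ Ioo a b, -Φ' e ≤ η / e * Φ e) :
    Φ a ≤ Φ b * exp (η * log (b / a)) := by
  have hb : 0 < b := ha.trans_le hab
  have hmono : MonotoneOn (fun e => Φ e * exp (η * log e)) (Icc a b) := by
    apply monotoneOn_of_deriv_nonneg (convex_Icc a b)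
    · have h1 : ContinuousOn (fun e => η * log e) (Icc a b) :=
        continuousOn_const.mul (continuousOn_log.mono fun e he => (ha.trans_le he.1).ne')
      exact hc.mul h1.rexp
    · intro e he
      rw [interior_Icc] at he
      have he0 : e ≠ 0 := (ha.trans he.1).ne'
      exact ((hd e he).differentiableAt.mul
        (((differentiableAt_log he0).const_mul η).exp)).differentiableWithinAt
    · intro e he
      rw [interior_Icc] at he
      have he0 : 0 < e := ha.trans he.1
      have h1 : HasDerivAt (fun e => Φ e * exp (η * log e))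
          (Φ' e * exp (η * log e) + Φ e * (exp (η * log e) * (η * e⁻¹))) e :=
        (hd e he).mul (((hasDerivAt_log he0.ne').const_mul η).exp)
      rw [h1.deriv]
      have h2 := h e he
      rw [div_eq_mul_inv] at h2
      have h3 := exp_pos (η * log e)
      nlinarith
  have h1 := hmono (left_mem_Icc.2 hab) (right_mem_Icc.2 hab) hab
  simp only at h1
  have h2 : Φ a = Φ a * exp (η * log a) * exp (-(η * log a)) := by
    rw [mul_assoc, ← exp_add]
    simp
  rw [h2]
  calc Φ a * exp (η * log a) * exp (-(η * log a)) ≤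
        Φ b * exp (η * log b) * exp (-(η * log a)) :=
        mul_le_mul_of_nonneg_right h1 (exp_pos _).le
    _ = Φ b * exp (η * log (b / a)) := by
        rw [mul_assoc, ← exp_add, log_div hb.ne' ha.ne']
        congr 2
        ring

/-- **The lowering of one family**: rate `min (η / e) K`. -/
theorem gron_min {e₀ η K : ℝ} (he₀ : 0 < e₀) (hη : 0 < η) (hK : 0 < K)
    (hc : ContinuousOn Φ (Icc 0 e₀)) (hd : ∀ e ∈ Ioo 0 e₀, HasDerivAt Φ (Φ' e) e)
    (hpos : ∀ e ∈ Icc 0 e₀, 0 ≤ Φ e) (h1 : ∀ e ∈ Ioo 0 e₀, -Φ' e ≤ K * Φ e)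
    (h2 : ∀ e ∈ Ioo 0 e₀, -Φ' e ≤ η / e * Φ e) :
    Φ 0 ≤ Φ e₀ * exp (η * (1 + log (max 1 (e₀ * K / η)))) := by
  set e₁ : ℝ := min e₀ (η / K) with he₁
  have hηK : 0 < η / K := div_pos hη hK
  have he₁0 : 0 < e₁ := lt_min he₀ hηK
  have he₁le : e₁ ≤ e₀ := min_le_left _ _
  have hA := gron_const (K := K) he₁0.le (hc.mono (Icc_subset_Icc_right he₁le))
    (fun e he => hd e ⟨he.1, he.2.trans_le he₁le⟩) (fun e he => h1 e ⟨he.1, he.2.trans_le he₁le⟩)
  have hB := gron_inv (η := η) he₁0 he₁le (hc.mono (Icc_subset_Icc_left he₁0.le))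
    (fun e he => hd e ⟨he₁0.trans he.1, he.2⟩) (fun e he => h2 e ⟨he₁0.trans he.1, he.2⟩)
  have hKe : K * (e₁ - 0) ≤ η := by
    rw [sub_zero]
    have h3 : e₁ ≤ η / K := min_le_right _ _
    calc K * e₁ ≤ K * (η / K) := mul_le_mul_of_nonneg_left h3 hK.le
      _ = η := by field_simp
  have hratio : e₀ / e₁ = max 1 (e₀ * K / η) := by
    rcases le_total e₀ (η / K) with h | h
    · rw [he₁, min_eq_left h, div_self he₀.ne']
      rw [max_eq_left]
      rw [div_le_one hη]
      rwa [le_div_iff₀ hK] at h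
    · rw [he₁, min_eq_right h]
      rw [max_eq_right]
      · field_simp
      · rw [le_div_iff₀ hη, one_mul]
        rwa [div_le_iff₀ hK] at h
  have h4 : 0 ≤ Φ e₁ := hpos e₁ ⟨he₁0.le, he₁le⟩
  have h5 : 0 ≤ Φ e₀ := hpos e₀ ⟨he₀.le, le_rfl⟩
  calc Φ 0 ≤ Φ e₁ * exp (K * (e₁ - 0)) := hA
    _ ≤ Φ e₁ * exp η := mul_le_mul_of_nonneg_left (exp_le_exp.2 hKe) h4
    _ ≤ Φ e₀ * exp (η * log (e₀ / e₁)) * exp η := mul_le_mul_of_nonneg_right hB (exp_pos _).le
    _ = Φ e₀ * exp (η * (1 + log (max 1 (e₀ * K / η)))) := by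
        rw [hratio, mul_assoc, ← exp_add]
        congr 2
        ring

end Vale.Agent.P365.J376
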