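import Vale.Agent.P365.T1a.Deriv
import Vale.Agent.P365.J376.Gron
import Mathlib.Analysis.Calculus.ParametricIntegral

/-!
# P365-T1, composition: the energy along a path of absorption profiles.

`hasDerivAt_Gr`, `hasDerivAt_En` (finite), `hasDerivAt_integral_En` (under any probability measure,
affine profile `u + e w`), `flow_step` (lowering `e₀ → 0` with rate `min(η/e, K)` and an additive
constant).
-/

set_option linter.all false

namespace Vale.Agent.P365.J376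

open P365L P365O P365T1 Matrix Complex MeasureTheory Filter Topology Set
open scoped ComplexConjugate

variable {ι : Type*} [Fintype ι] [DecidableEq ι] {A : Matrix ι ι ℝ}

/-- `W = a - i h` -/
noncomputable def Wp (a h : ι → ℝ) : ι → ℂ := fun x => (a x : ℂ) - (h x : ℂ) * I

omit [Fintype ι] [DecidableEq ι] in
theorem Wp_im (a h : ι → ℝ) (x : ι) : (Wp a h x).im = -(h x) := by
  simp [Wp]

omit [Fintype ι] [DecidableEq ι] in
theorem Wp_re (a h : ι → ℝ) (x : ι) : (Wp a h x).re = a x := by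
  simp [Wp]

omit [Fintype ι] in
theorem Kmat_sub (W W' : ι → ℂ) :
    Kmat A W - Kmat A W' = Matrix.diagonal (fun z => W z - W' z) := by
  ext x y
  rw [Matrix.sub_apply, Kmat, Kmat, Matrix.add_apply, Matrix.add_apply]
  by_cases h : x = y
  · subst h
    simp
  · simp [Matrix.diagonal_apply_ne _ h]

theorem Gr_sub (hA : A.IsSymm) {W W' : ι → ℂ} (hW : ∀ x, (W x).im < 0)
    (hW' : ∀ x, (W' x).im < 0) (a b : ι) :
    Gr A W' a b - Gr A W a b = ∑ z, Gr A W' a z * (W z - W' z) * Gr A W z b := by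
  have h : Gr A W' - Gr A W =
      Gr A W' * Matrix.diagonal (fun z => W z - W' z) * Gr A W := by
    rw [← Kmat_sub (A := A), Matrix.mul_sub, Matrix.sub_mul, Matrix.mul_assoc,
      Kmat_mul_Gr hA hW, Matrix.mul_one, Gr_mul_Kmat hA hW', Matrix.one_mul]
  have h2 := congrFun (congrFun h a) b
  rw [Matrix.sub_apply, Matrix.mul_apply] at h2
  rw [h2]
  refine Finset.sum_congr rfl fun z _ => ?_
  rw [Matrix.mul_diagonal]

theorem continuousAt_Gr (hA : A.IsSymm) {W : ℝ → ι → ℂ} {s₀ : ℝ}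
    (hc : ∀ x, ContinuousAt (fun s => W s x) s₀) (hneg : ∀ x, (W s₀ x).im < 0) (a b : ι) :
    ContinuousAt (fun s => Gr A (W s) a b) s₀ := by
  -- uniform bound near `s₀`
  obtain ⟨η, hη, hη2⟩ : ∃ η : ℝ, 0 < η ∧ ∀ x, (W s₀ x).im < -η := by
    rcases isEmpty_or_nonempty ι with h | h
    · exact ⟨1, one_pos, fun x => (h.false x).elim⟩
    · obtain ⟨x₀, hx₀⟩ := Finite.exists_max (fun x => (W s₀ x).im)
      refine ⟨-(W s₀ x₀).im / 2, by linarith [hneg x₀], fun x => ?_⟩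
      have := hx₀ x
      have := hneg x₀
      linarith
  have hev : ∀ᶠ s in 𝓝 s₀, ∀ x, (W s x).im < -η := by
    rw [eventually_all]
    intro x
    exact (Complex.continuous_im.continuousAt.comp (hc x)).eventually (gt_mem_nhds (hη2 x))
  have hbd : ∀ᶠ s in 𝓝 s₀, ‖Gr A (W s) a b - Gr A (W s₀) a b‖ ≤
      ∑ z, (1 / η) * ‖W s₀ z - W s z‖ * (1 / η) := by
    filter_upwards [hev] with s hs
    rw [Gr_sub hA hneg (fun x => (hs x).trans (by linarith)) a b]
    refine (norm_sum_le _ _).trans (Finset.sum_le_sum fun z _ => ?_)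
    rw [norm_mul, norm_mul]
    have h1 := norm_Gr_le hA hη (W := W s) (fun x => (hs x).le) a z
    have h2 := norm_Gr_le hA hη (W := W s₀) (fun x => (hη2 x).le) z b
    gcongr
  have hlim : Tendsto (fun s => ∑ z, (1 / η) * ‖W s₀ z - W s z‖ * (1 / η)) (𝓝 s₀) (𝓝 0) := by
    have h0 : (0 : ℝ) = ∑ z : ι, (1 / η) * ‖W s₀ z - W s₀ z‖ * (1 / η) := by simp
    rw [h0]
    refine tendsto_finset_sum _ fun z _ => ?_
    have h3 : Tendsto (fun s => W s₀ z - W s z) (𝓝 s₀) (𝓝 (W s₀ z - W s₀ z)) :=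
      tendsto_const_nhds.sub (hc z)
    exact (h3.norm.const_mul _).mul_const _
  have h4 : Tendsto (fun s => Gr A (W s) a b - Gr A (W s₀) a b) (𝓝 s₀) (𝓝 0) :=
    squeeze_zero_norm' hbd hlim
  have h5 := h4.add_const (Gr A (W s₀) a b)
  simp only [sub_add_cancel, zero_add] at h5
  exact h5

theorem hasDerivAt_Gr (hA : A.IsSymm) {W : ℝ → ι → ℂ} {W' : ι → ℂ} {s₀ : ℝ}
    (hd : ∀ x, HasDerivAt (fun s => W s x) (W' x) s₀) (hneg : ∀ x, (W s₀ x).im < 0) (a b : ι) :
    HasDerivAt (fun s => Gr A (W s) a b)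
      (∑ z, Gr A (W s₀) a z * (-(W' z)) * Gr A (W s₀) z b) s₀ := by
  have hev : ∀ᶠ s in 𝓝 s₀, ∀ x, (W s x).im < 0 := by
    rw [eventually_all]
    intro x
    exact (Complex.continuous_im.continuousAt.comp (hd x).continuousAt).eventually
      (gt_mem_nhds (hneg x))
  rw [hasDerivAt_iff_tendsto_slope]
  have h1 : ∀ᶠ s in 𝓝[≠] s₀, ∑ z, Gr A (W s) a z * (-(slope (fun s => W s z) s₀ s)) *
      Gr A (W s₀) z b = slope (fun s => Gr A (W s) a b) s₀ s := by
    filter_upwards [nhdsWithin_le_nhds hev] with s hs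
    rw [slope_def_module, Gr_sub hA hneg hs a b, Finset.smul_sum]
    refine Finset.sum_congr rfl fun z _ => ?_
    rw [slope_def_module]
    simp only [real_smul]
    ring
  refine Tendsto.congr' h1 ?_
  refine tendsto_finset_sum _ fun z _ => ?_
  have h2 : Tendsto (fun s => Gr A (W s) a z) (𝓝[≠] s₀) (𝓝 (Gr A (W s₀) a z)) :=
    (continuousAt_Gr hA (fun x => (hd x).continuousAt) hneg a z).tendsto.mono_left
      nhdsWithin_le_nhds
  have h3 := (hasDerivAt_iff_tendsto_slope.1 (hd z)).neg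
  exact (h2.mul h3).mul_const _

/-- derivative of the energy along an imaginary path `W = a - i h(s)` -/
theorem hasDerivAt_En (hA : A.IsSymm) {a : ι → ℝ} {h : ℝ → ι → ℝ} {h' : ι → ℝ} {s₀ : ℝ}
    (hd : ∀ x, HasDerivAt (fun s => h s x) (h' x) s₀) (hpos : ∀ x, 0 < h s₀ x) (f : ι → ℝ) :
    HasDerivAt (fun s => En A (Wp a (h s)) f) (∑ z, h' z * dEn A (Wp a (h s₀)) f z) s₀ := by
  have hneg : ∀ x, (Wp a (h s₀) x).im < 0 := fun x => by
    rw [Wp_im]
    linarith [hpos x]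
  have hWd : ∀ x, HasDerivAt (fun s => Wp a (h s) x) (-((h' x : ℂ) * I)) s₀ := by
    intro x
    have h1 : HasDerivAt (fun s => (h s x : ℂ)) (h' x : ℂ) s₀ := (hd x).ofReal_comp
    have h2 := (h1.mul_const I).const_sub (a x : ℂ)
    exact h2
  set G := Gr A (Wp a (h s₀)) with hG
  have hK : ∀ x y, HasDerivAt (fun s => KK A (Wp a (h s)) x y)
      (∑ z, h' z * (-2 * (conj (G x y) * G x z * G z y).im)) s₀ := by
    intro x y
    have h1 := (hasDerivAt_Gr hA hWd hneg x y).norm_sq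
    have h2 : 2 * inner ℝ (Gr A (Wp a (h s₀)) x y)
        (∑ z, Gr A (Wp a (h s₀)) x z * (-(-((h' z : ℂ) * I))) * Gr A (Wp a (h s₀)) z y) =
        ∑ z, h' z * (-2 * (conj (G x y) * G x z * G z y).im) := by
      rw [Complex.inner, Finset.sum_mul, Complex.re_sum, Finset.mul_sum]
      refine Finset.sum_congr rfl fun z _ => ?_
      have h3 : (Gr A (Wp a (h s₀)) x z * (-(-((h' z : ℂ) * I))) * Gr A (Wp a (h s₀)) z y) *
          (starRingEnd ℂ) (Gr A (Wp a (h s₀)) x y) =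
          ((h' z : ℝ) : ℂ) * (I * (conj (G x y) * G x z * G z y)) := by
        rw [← hG]
        ring
      rw [h3, Complex.re_ofReal_mul, Complex.I_mul_re]
      ring
    rw [← h2]
    exact h1
  have hE : ∀ x y, HasDerivAt (fun s => (-(Wp a (h s) x).im) * (-(Wp a (h s) y).im) *
      KK A (Wp a (h s)) x y * (f x - f y) ^ 2)
      (((h' x * h s₀ y + h s₀ x * h' y) * KK A (Wp a (h s₀)) x y +
        h s₀ x * h s₀ y * ∑ z, h' z * (-2 * (conj (G x y) * G x z * G z y).im)) *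
        (f x - f y) ^ 2) s₀ := by
    intro x y
    simp only [Wp_im, neg_neg]
    exact (((hd x).mul (hd y)).mul (hK x y)).mul_const _
  have hS : HasDerivAt (fun s => En A (Wp a (h s)) f)
      (∑ x, ∑ y, ((h' x * h s₀ y + h s₀ x * h' y) * KK A (Wp a (h s₀)) x y +
        h s₀ x * h s₀ y * ∑ z, h' z * (-2 * (conj (G x y) * G x z * G z y).im)) *
        (f x - f y) ^ 2) s₀ := by
    unfold En
    exact HasDerivAt.fun_sum fun x _ => HasDerivAt.fun_sum fun y _ => hE x y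
  have hval : ∑ z, h' z * dEn A (Wp a (h s₀)) f z =
      ∑ x, ∑ y, ((h' x * h s₀ y + h s₀ x * h' y) * KK A (Wp a (h s₀)) x y +
        h s₀ x * h s₀ y * ∑ z, h' z * (-2 * (conj (G x y) * G x z * G z y).im)) *
        (f x - f y) ^ 2 := by
    have hM : ∀ z, Mf A (Wp a (h s₀)) f z =
        ∑ y, h s₀ y * KK A (Wp a (h s₀)) z y * (f z - f y) ^ 2 := by
      intro z
      unfold Mf
      refine Finset.sum_congr rfl fun y _ => ?_
      rw [Wp_im, neg_neg]
      ring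
    have e1 : ∑ z, h' z * dEn A (Wp a (h s₀)) f z =
        ∑ z, h' z * Mf A (Wp a (h s₀)) f z + ∑ z, h' z * Mf A (Wp a (h s₀)) f z +
        ∑ z, h' z * ∑ x, ∑ y, h s₀ x * h s₀ y *
          (-2 * (conj (G x y) * G x z * G z y).im) * (f x - f y) ^ 2 := by
      rw [← Finset.sum_add_distrib, ← Finset.sum_add_distrib]
      refine Finset.sum_congr rfl fun z _ => ?_
      rw [dEn]
      simp only [Wp_im, neg_neg]
      ring
    have e2 : ∑ z, h' z * Mf A (Wp a (h s₀)) f z =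
        ∑ x, ∑ y, h' x * h s₀ y * KK A (Wp a (h s₀)) x y * (f x - f y) ^ 2 := by
      refine Finset.sum_congr rfl fun z _ => ?_
      rw [hM, Finset.mul_sum]
      refine Finset.sum_congr rfl fun y _ => ?_
      ring
    have e3 : ∑ z, h' z * Mf A (Wp a (h s₀)) f z =
        ∑ x, ∑ y, h s₀ x * h' y * KK A (Wp a (h s₀)) x y * (f x - f y) ^ 2 := by
      rw [e2, Finset.sum_comm]
      refine Finset.sum_congr rfl fun x _ => Finset.sum_congr rfl fun y _ => ?_
      rw [KK_symm hA y x]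
      ring
    have e4 : ∑ z, h' z * ∑ x, ∑ y, h s₀ x * h s₀ y *
          (-2 * (conj (G x y) * G x z * G z y).im) * (f x - f y) ^ 2 =
        ∑ x, ∑ y, (h s₀ x * h s₀ y * ∑ z, h' z * (-2 * (conj (G x y) * G x z * G z y).im)) *
          (f x - f y) ^ 2 := by
      simp_rw [Finset.mul_sum, Finset.sum_mul]
      rw [Finset.sum_comm]
      refine Finset.sum_congr rfl fun x _ => ?_
      rw [Finset.sum_comm]
      refine Finset.sum_congr rfl fun y _ => Finset.sum_congr rfl fun z _ => ?_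
      ring
    rw [e1, e4]
    nth_rewrite 1 [e2]
    rw [e3, ← Finset.sum_add_distrib, ← Finset.sum_add_distrib]
    refine Finset.sum_congr rfl fun x _ => ?_
    rw [← Finset.sum_add_distrib, ← Finset.sum_add_distrib]
    refine Finset.sum_congr rfl fun y _ => ?_
    ring
  rw [hval]
  exact hS

/-- a crude uniform bound for `dEn` -/
theorem dEn_bounded (hA : A.IsSymm) {b H : ℝ} (hb : 0 < b) (f : ι → ℝ) (z : ι) :
    ∃ C : ℝ, 0 ≤ C ∧ ∀ a h : ι → ℝ, (∀ x, b ≤ h x) → (∀ x, h x ≤ H) →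
      |dEn A (Wp a h) f z| ≤ C := by
  refine ⟨2 * ∑ y, H * (1 / b) ^ 2 * (f z - f y) ^ 2 +
    ∑ x, ∑ y, H * H * (2 * ((1 / b) * (1 / b) * (1 / b))) * (f x - f y) ^ 2 +
    |2 * ∑ y, H * (1 / b) ^ 2 * (f z - f y) ^ 2 +
    ∑ x, ∑ y, H * H * (2 * ((1 / b) * (1 / b) * (1 / b))) * (f x - f y) ^ 2|, ?_, ?_⟩
  · linarith [neg_abs_le (2 * ∑ y, H * (1 / b) ^ 2 * (f z - f y) ^ 2 +
      ∑ x, ∑ y, H * H * (2 * ((1 / b) * (1 / b) * (1 / b))) * (f x - f y) ^ 2)]
  intro a h hb' hH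
  have hG : ∀ x y, ‖Gr A (Wp a h) x y‖ ≤ 1 / b := fun x y =>
    norm_Gr_le hA hb (W := Wp a h) (fun x => by rw [Wp_im]; linarith [hb' x]) x y
  have hh0 : ∀ x, 0 ≤ h x := fun x => hb.le.trans (hb' x)
  refine le_trans ?_ (le_add_of_nonneg_right (abs_nonneg _))
  rw [dEn]
  refine (abs_add_le _ _).trans (add_le_add ?_ ?_)
  · rw [abs_mul, abs_two]
    refine mul_le_mul_of_nonneg_left ?_ (by norm_num)
    unfold Mf
    refine (Finset.abs_sum_le_sum_abs _ _).trans (Finset.sum_le_sum fun y _ => ?_)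
    have hK : KK A (Wp a h) z y ≤ (1 / b) ^ 2 := by
      unfold KK
      exact pow_le_pow_left₀ (norm_nonneg _) (hG z y) 2
    rw [Wp_im, neg_neg, abs_mul, abs_mul, abs_of_nonneg (hh0 y),
      abs_of_nonneg (KK_nonneg (A := A) (W := Wp a h) z y), abs_of_nonneg (sq_nonneg _)]
    have hH0 : 0 ≤ H := (hh0 y).trans (hH y)
    have h1 : h y * KK A (Wp a h) z y ≤ H * (1 / b) ^ 2 :=
      mul_le_mul (hH y) hK (KK_nonneg _ _) hH0
    calc h y * KK A (Wp a h) z y * (f y - f z) ^ 2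
        ≤ H * (1 / b) ^ 2 * (f y - f z) ^ 2 := mul_le_mul_of_nonneg_right h1 (sq_nonneg _)
      _ = H * (1 / b) ^ 2 * (f z - f y) ^ 2 := by ring
  · refine (Finset.abs_sum_le_sum_abs _ _).trans (Finset.sum_le_sum fun x _ => ?_)
    refine (Finset.abs_sum_le_sum_abs _ _).trans (Finset.sum_le_sum fun y _ => ?_)
    simp only [Wp_im, neg_neg]
    rw [abs_mul, abs_mul, abs_mul, abs_of_nonneg (hh0 x), abs_of_nonneg (hh0 y),
      abs_of_nonneg (sq_nonneg (f x - f y))]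
    have hH0 : 0 ≤ H := (hh0 y).trans (hH y)
    have h1 : h x * h y ≤ H * H := mul_le_mul (hH x) (hH y) (hh0 y) hH0
    have h2 : |(-2 : ℝ) * (conj (Gr A (Wp a h) x y) * Gr A (Wp a h) x z *
        Gr A (Wp a h) z y).im| ≤ 2 * ((1 / b) * (1 / b) * (1 / b)) := by
      rw [abs_mul, abs_neg, abs_two]
      refine mul_le_mul_of_nonneg_left ?_ (by norm_num)
      refine (Complex.abs_im_le_norm _).trans ?_
      rw [norm_mul, norm_mul, RCLike.norm_conj]
      have hb1 : (0 : ℝ) ≤ 1 / b := by positivity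
      exact mul_le_mul (mul_le_mul (hG x y) (hG x z) (norm_nonneg _) hb1) (hG z y)
        (norm_nonneg _) (by positivity)
    exact mul_le_mul_of_nonneg_right
      (mul_le_mul h1 h2 (abs_nonneg _) (by positivity)) (sq_nonneg _)

theorem En_nonneg' (a h : ι → ℝ) (hh : ∀ x, 0 ≤ h x) (f : ι → ℝ) : 0 ≤ En A (Wp a h) f := by
  unfold En
  refine Finset.sum_nonneg fun x _ => Finset.sum_nonneg fun y _ => ?_
  rw [Wp_im, Wp_im, neg_neg, neg_neg]
  have := KK_nonneg (A := A) (W := Wp a h) x y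
  have := hh x
  have := hh y
  positivity

/-- `En` is bounded by `∑ (f x - f y)²`, whatever the profile -/
theorem En_le (hA : A.IsSymm) (a h : ι → ℝ) (hh : ∀ x, 0 < h x) (f : ι → ℝ) :
    En A (Wp a h) f ≤ ∑ x, ∑ y, (f x - f y) ^ 2 := by
  have hW : ∀ x, (Wp a h x).im < 0 := fun x => by rw [Wp_im]; linarith [hh x]
  unfold En
  refine Finset.sum_le_sum fun x _ => Finset.sum_le_sum fun y _ => ?_
  have h1 := e_mul_KK_le hA hW x y
  have h2 : (-(Wp a h x).im) * mm A (Wp a h) x ≤ 1 := by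
    have h3 : (-(Wp a h x).im) * mm A (Wp a h) x ≤ 1 := by
      have h4 := e_mul_KK_le hA hW x x
      have h5 : mm A (Wp a h) x ^ 2 ≤ KK A (Wp a h) x x := by
        unfold mm KK
        rw [← sq_abs]
        exact pow_le_pow_left₀ (abs_nonneg _) (Complex.abs_im_le_norm _) 2
      have h6 := mm_pos hA hW x
      have h7 : 0 < -(Wp a h x).im := by linarith [hW x]
      have h8 : (-(Wp a h x).im) * mm A (Wp a h) x * mm A (Wp a h) x ≤ 1 * mm A (Wp a h) x := by
        have := mul_le_mul_of_nonneg_left h5 h7.le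
        nlinarith
      exact le_of_mul_le_mul_right h8 h6
    exact h3
  have h9 : 0 ≤ -(Wp a h x).im := by rw [Wp_im, neg_neg]; exact (hh x).le
  have h10 : (-(Wp a h x).im) * (-(Wp a h y).im) * KK A (Wp a h) x y ≤ 1 := by
    have := mul_le_mul_of_nonneg_left h1 h9
    nlinarith
  calc _ ≤ 1 * (f x - f y) ^ 2 := mul_le_mul_of_nonneg_right h10 (sq_nonneg _)
    _ = _ := one_mul _

section Meas

variable {Ω : Type*} [MeasurableSpace Ω] {μ : Measure Ω}

theorem measurable_Gr_Wp {a h : Ω → ι → ℝ} (ha : ∀ x, Measurable fun ω => a ω x)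
    (hh : ∀ x, Measurable fun ω => h ω x) (x y : ι) :
    Measurable fun ω => Gr A (Wp (a ω) (h ω)) x y := by
  refine measurable_Gr (fun ω => Wp (a ω) (h ω)) (fun z => ?_) x y
  unfold Wp
  exact (Complex.measurable_ofReal.comp (ha z)).sub
    ((Complex.measurable_ofReal.comp (hh z)).mul_const I)

theorem measurable_KK_Wp {a h : Ω → ι → ℝ} (ha : ∀ x, Measurable fun ω => a ω x)
    (hh : ∀ x, Measurable fun ω => h ω x) (x y : ι) :
    Measurable fun ω => KK A (Wp (a ω) (h ω)) x y :=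
  (measurable_Gr_Wp ha hh x y).norm.pow_const 2

theorem measurable_En_Wp {a h : Ω → ι → ℝ} (ha : ∀ x, Measurable fun ω => a ω x)
    (hh : ∀ x, Measurable fun ω => h ω x) (f : ι → ℝ) :
    Measurable fun ω => En A (Wp (a ω) (h ω)) f := by
  unfold En
  simp only [Wp_im, neg_neg]
  exact Finset.measurable_sum _ fun x _ => Finset.measurable_sum _ fun y _ =>
    (((hh x).mul (hh y)).mul (measurable_KK_Wp ha hh x y)).mul_const _

theorem measurable_Mf_Wp {a h : Ω → ι → ℝ} (ha : ∀ x, Measurable fun ω => a ω x)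
    (hh : ∀ x, Measurable fun ω => h ω x) (f : ι → ℝ) (z : ι) :
    Measurable fun ω => Mf A (Wp (a ω) (h ω)) f z := by
  unfold Mf
  simp only [Wp_im, neg_neg]
  exact Finset.measurable_sum _ fun x _ => ((hh x).mul (measurable_KK_Wp ha hh _ _)).mul_const _

theorem measurable_dEn_Wp {a h : Ω → ι → ℝ} (ha : ∀ x, Measurable fun ω => a ω x)
    (hh : ∀ x, Measurable fun ω => h ω x) (f : ι → ℝ) (z : ι) :
    Measurable fun ω => dEn A (Wp (a ω) (h ω)) f z := by
  unfold dEn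
  simp only [Wp_im, neg_neg]
  refine ((measurable_Mf_Wp ha hh f z).const_mul 2).add ?_
  refine Finset.measurable_sum _ fun x _ => Finset.measurable_sum _ fun y _ => ?_
  have hG := fun x y => measurable_Gr_Wp (A := A) ha hh x y
  have hc : Measurable fun ω => conj (Gr A (Wp (a ω) (h ω)) x y) :=
    Complex.continuous_conj.measurable.comp (hG x y)
  exact (((hh x).mul (hh y)).mul
    ((Complex.measurable_im.comp ((hc.mul (hG x z)).mul (hG z y))).const_mul _)).mul_const _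

theorem integrable_En_Wp [IsFiniteMeasure μ] (hA : A.IsSymm) {a h : Ω → ι → ℝ}
    (ha : ∀ x, Measurable fun ω => a ω x)
    (hh : ∀ x, Measurable fun ω => h ω x) (hpos : ∀ ω x, 0 < h ω x) (f : ι → ℝ) :
    Integrable (fun ω => En A (Wp (a ω) (h ω)) f) μ := by
  refine Integrable.mono' (integrable_const (∑ x, ∑ y, (f x - f y) ^ 2))
    (measurable_En_Wp ha hh f).aestronglyMeasurable (Eventually.of_forall fun ω => ?_)
  rw [Real.norm_eq_abs, abs_of_nonneg (En_nonneg' _ _ (fun x => (hpos ω x).le) f)]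
  exact En_le hA _ _ (hpos ω) f

/-- derivative of the integrated energy along the affine path of profiles `u + e w` -/
theorem hasDerivAt_integral_En [IsFiniteMeasure μ] (hA : A.IsSymm) {b H : ℝ} (hb : 0 < b)
    {a u w : Ω → ι → ℝ} (ha : ∀ x, Measurable fun ω => a ω x)
    (hu : ∀ x, Measurable fun ω => u ω x) (hw : ∀ x, Measurable fun ω => w ω x)
    (hub : ∀ ω x, b ≤ u ω x) (huH : ∀ ω x, u ω x ≤ H)
    (hw0 : ∀ ω x, 0 ≤ w ω x) (hw1 : ∀ ω x, w ω x ≤ 1) (f : ι → ℝ) {e : ℝ} (he : 0 ≤ e) :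
    HasDerivAt (fun e => ∫ ω, En A (Wp (a ω) (fun x => u ω x + e * w ω x)) f ∂μ)
      (∫ ω, ∑ x, w ω x * dEn A (Wp (a ω) (fun x => u ω x + e * w ω x)) f x ∂μ) e := by
  choose C hC0 hC using fun z => dEn_bounded (A := A) (H := H + (e + 1)) hA (half_pos hb) f z
  have hs : Ioo (-(b / 2)) (e + 1) ∈ 𝓝 e :=
    Ioo_mem_nhds (by linarith) (by linarith)
  have hlow : ∀ s ∈ Ioo (-(b / 2)) (e + 1), ∀ ω x, b / 2 ≤ u ω x + s * w ω x := by
    intro s hs ω x
    have h1 := hub ω x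
    have h2 := hw0 ω x
    have h3 := hw1 ω x
    have h4 : -(b / 2) * w ω x ≤ s * w ω x := mul_le_mul_of_nonneg_right hs.1.le h2
    nlinarith
  have hup : ∀ s ∈ Ioo (-(b / 2)) (e + 1), ∀ ω x, u ω x + s * w ω x ≤ H + (e + 1) := by
    intro s hs ω x
    have h1 := huH ω x
    have h2 := hw0 ω x
    have h3 := hw1 ω x
    have h4 : s * w ω x ≤ (e + 1) * w ω x := mul_le_mul_of_nonneg_right hs.2.le h2
    nlinarith
  have hmh : ∀ s : ℝ, ∀ x, Measurable fun ω => u ω x + s * w ω x := fun s x =>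
    (hu x).add ((hw x).const_mul s)
  have hint : ∀ s ∈ Ioo (-(b / 2)) (e + 1),
      Integrable (fun ω => En A (Wp (a ω) (fun x => u ω x + s * w ω x)) f) μ := fun s hs =>
    integrable_En_Wp (h := fun ω x => u ω x + s * w ω x) hA ha (hmh s)
      (fun ω x => (half_pos hb).trans_le (hlow s hs ω x)) f
  have hmem : e ∈ Ioo (-(b / 2)) (e + 1) := mem_of_mem_nhds hs
  refine (hasDerivAt_integral_of_dominated_loc_of_deriv_le (μ := μ) (s := Ioo (-(b / 2)) (e + 1))
    (F := fun s ω => En A (Wp (a ω) (fun x => u ω x + s * w ω x)) f)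
    (F' := fun s ω => ∑ x, w ω x * dEn A (Wp (a ω) (fun x => u ω x + s * w ω x)) f x)
    (bound := fun _ => ∑ x, C x) hs ?_ (hint e hmem) ?_ ?_ (integrable_const _) ?_).2
  · filter_upwards with s
    exact (measurable_En_Wp (h := fun ω x => u ω x + s * w ω x) ha (hmh s) f).aestronglyMeasurable
  · exact (Finset.measurable_sum _ fun x _ => (hw x).mul
      (measurable_dEn_Wp (h := fun ω x => u ω x + e * w ω x) ha (hmh e) f x)).aestronglyMeasurable
  · refine Eventually.of_forall fun ω s hs => ?_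
    rw [Real.norm_eq_abs]
    refine (Finset.abs_sum_le_sum_abs _ _).trans (Finset.sum_le_sum fun x _ => ?_)
    rw [abs_mul, abs_of_nonneg (hw0 ω x)]
    have h1 := hC x (a ω) (fun x => u ω x + s * w ω x) (hlow s hs ω) (hup s hs ω)
    calc w ω x * |dEn A (Wp (a ω) (fun x => u ω x + s * w ω x)) f x|
        ≤ 1 * C x := mul_le_mul (hw1 ω x) h1 (abs_nonneg _) zero_le_one
      _ = C x := one_mul _
  · refine Eventually.of_forall fun ω s hs => ?_
    exact hasDerivAt_En (h := fun s x => u ω x + s * w ω x) hA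
      (fun x => by simpa using ((hasDerivAt_id s).mul_const (w ω x)).const_add (u ω x))
      (fun x => (half_pos hb).trans_le (hlow s hs ω x)) f

/-- **lowering step**: rate `min(η/e, K)` against `Φ + c`. -/
theorem flow_step [IsFiniteMeasure μ] (hA : A.IsSymm) {b H : ℝ} (hb : 0 < b)
    {a u w : Ω → ι → ℝ} (ha : ∀ x, Measurable fun ω => a ω x)
    (hu : ∀ x, Measurable fun ω => u ω x) (hw : ∀ x, Measurable fun ω => w ω x)
    (hub : ∀ ω x, b ≤ u ω x) (huH : ∀ ω x, u ω x ≤ H)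
    (hw0 : ∀ ω x, 0 ≤ w ω x) (hw1 : ∀ ω x, w ω x ≤ 1) (f : ι → ℝ)
    {e₀ η K c : ℝ} (he₀ : 0 < e₀) (hη : 0 < η) (hK : 0 < K) (hc : 0 ≤ c)
    (h1 : ∀ e ∈ Ioo 0 e₀,
      -∫ ω, ∑ x, w ω x * dEn A (Wp (a ω) (fun x => u ω x + e * w ω x)) f x ∂μ ≤
        K * (∫ ω, En A (Wp (a ω) (fun x => u ω x + e * w ω x)) f ∂μ + c))
    (h2 : ∀ e ∈ Ioo 0 e₀,
      -∫ ω, ∑ x, w ω x * dEn A (Wp (a ω) (fun x => u ω x + e * w ω x)) f x ∂μ ≤
        η / e * (∫ ω, En A (Wp (a ω) (fun x => u ω x + e * w ω x)) f ∂μ + c)) :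
    ∫ ω, En A (Wp (a ω) (u ω)) f ∂μ + c ≤
      (∫ ω, En A (Wp (a ω) (fun x => u ω x + e₀ * w ω x)) f ∂μ + c) *
        Real.exp (η * (1 + Real.log (max 1 (e₀ * K / η)))) := by
  set Φ : ℝ → ℝ := fun e => ∫ ω, En A (Wp (a ω) (fun x => u ω x + e * w ω x)) f ∂μ + c with hΦ
  have hd : ∀ e, 0 ≤ e → HasDerivAt Φ
      (∫ ω, ∑ x, w ω x * dEn A (Wp (a ω) (fun x => u ω x + e * w ω x)) f x ∂μ) e := fun e he =>
    (hasDerivAt_integral_En (μ := μ) hA hb ha hu hw hub huH hw0 hw1 f he).add_const c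
  have h3 := gron_min (Φ := Φ)
    (Φ' := fun e => ∫ ω, ∑ x, w ω x * dEn A (Wp (a ω) (fun x => u ω x + e * w ω x)) f x ∂μ)
    he₀ hη hK (fun e he => (hd e he.1).continuousAt.continuousWithinAt)
    (fun e he => hd e he.1.le)
    (fun e he => add_nonneg (integral_nonneg fun ω => En_nonneg' _ _ (fun x => by
      have h1 := hub ω x
      have h2 := hw0 ω x
      have h3 := he.1
      have : 0 ≤ e * w ω x := mul_nonneg h3 h2
      linarith) f) hc) h1 h2
  have h4 : Φ 0 = ∫ ω, En A (Wp (a ω) (u ω)) f ∂μ + c := by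
    simp [hΦ]
  rw [h4] at h3
  exact h3

/-- **crude step**: constant rate -/
theorem flow_step_const [IsFiniteMeasure μ] (hA : A.IsSymm) {b H : ℝ} (hb : 0 < b)
    {a u w : Ω → ι → ℝ} (ha : ∀ x, Measurable fun ω => a ω x)
    (hu : ∀ x, Measurable fun ω => u ω x) (hw : ∀ x, Measurable fun ω => w ω x)
    (hub : ∀ ω x, b ≤ u ω x) (huH : ∀ ω x, u ω x ≤ H)
    (hw0 : ∀ ω x, 0 ≤ w ω x) (hw1 : ∀ ω x, w ω x ≤ 1) (f : ι → ℝ)
    {e₀ K c : ℝ} (he₀ : 0 ≤ e₀)
    (h1 : ∀ e ∈ Ioo 0 e₀,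
      -∫ ω, ∑ x, w ω x * dEn A (Wp (a ω) (fun x => u ω x + e * w ω x)) f x ∂μ ≤
        K * (∫ ω, En A (Wp (a ω) (fun x => u ω x + e * w ω x)) f ∂μ + c)) :
    ∫ ω, En A (Wp (a ω) (u ω)) f ∂μ + c ≤
      (∫ ω, En A (Wp (a ω) (fun x => u ω x + e₀ * w ω x)) f ∂μ + c) *
        Real.exp (K * e₀) := by
  set Φ : ℝ → ℝ := fun e => ∫ ω, En A (Wp (a ω) (fun x => u ω x + e * w ω x)) f ∂μ + c with hΦ
  have hd : ∀ e, 0 ≤ e → HasDerivAt Φ
      (∫ ω, ∑ x, w ω x * dEn A (Wp (a ω) (fun x => u ω x + e * w ω x)) f x ∂μ) e := fun e he =>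
    (hasDerivAt_integral_En (μ := μ) hA hb ha hu hw hub huH hw0 hw1 f he).add_const c
  have h3 := gron_const (Φ := Φ)
    (Φ' := fun e => ∫ ω, ∑ x, w ω x * dEn A (Wp (a ω) (fun x => u ω x + e * w ω x)) f x ∂μ)
    he₀ (fun e he => (hd e he.1).continuousAt.continuousWithinAt)
    (fun e he => hd e he.1.le) h1
  have h4 : Φ 0 = ∫ ω, En A (Wp (a ω) (u ω)) f ∂μ + c := by
    simp [hΦ]
  rw [h4, sub_zero] at h3
  exact h3

end Meas

end Vale.Agent.P365.J376
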