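import Mathlib.Analysis.SpecialFunctions.Pow.Asymptotics
import Mathlib.Analysis.SpecialFunctions.Exp
import Mathlib.Analysis.SpecificLimits.Basic
import Vale.Agent.P365.J376.Gron

/-!
# P365 T1: the summation over the families
-/

open Set Real Filter Topology

namespace Vale.Agent.P365.J376

/-- A telescoping product of exponentials. -/
theorem chain_exp {a c : ℕ → ℝ} (h : ∀ i, a (i + 1) ≤ a i * exp (c i)) (n : ℕ) :
    a n ≤ a 0 * exp (∑ i ∈ Finset.range n, c i) := by
  induction n with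
  | zero => simp
  | succ n ih =>
    rw [Finset.sum_range_succ, exp_add, ← mul_assoc]
    exact (h n).trans (mul_le_mul_of_nonneg_right ih (exp_pos _).le)

theorem tendsto_aux (A : ℝ) (c : ℕ) :
    Tendsto (fun y : ℝ => y ^ 4 * (exp (-(y / 2)) * (1 + A * y ^ c))) atTop (𝓝 0) := by
  have h (n : ℕ) : Tendsto (fun y : ℝ => y ^ n * exp (-(y / 2))) atTop (𝓝 0) := by
    have h1 := (tendsto_pow_mul_exp_neg_atTop_nhds_zero n).comp
      (tendsto_id.atTop_div_const (by norm_num : (0 : ℝ) < 2))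
    have h2 := h1.const_mul ((2 : ℝ) ^ n)
    rw [mul_zero] at h2
    refine h2.congr fun y => ?_
    simp only [Function.comp_apply, id_eq]
    rw [div_pow]
    field_simp
  have h3 := (h 4).add ((h (4 + c)).const_mul A)
  rw [mul_zero, add_zero] at h3
  refine h3.congr fun y => ?_
  ring

/-- The numbers `r i` grow at least like `2 ^ (i + 1)`. -/
theorem two_pow_le {r : ℕ → ℝ} (h0 : 2 ≤ r 0) (hr : ∀ i, r (i + 1) = r i ^ 4) (i : ℕ) :
    (2 : ℝ) ^ (i + 1) ≤ r i := by
  induction i with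
  | zero => simpa using h0
  | succ i ih =>
    rw [hr, pow_succ]
    have h1 : (2 : ℝ) ≤ r i := by
      refine le_trans ?_ ih
      calc (2 : ℝ) = 2 ^ 1 := (pow_one 2).symm
        _ ≤ 2 ^ (i + 1) := pow_le_pow_right₀ (by norm_num) (by omega)
    have h2 : r i ^ 4 = r i * r i ^ 3 := by ring
    rw [h2]
    refine mul_le_mul ih ?_ (by norm_num) (by linarith)
    nlinarith [sq_nonneg (r i), mul_le_mul h1 h1 (by norm_num) (by linarith : (0 : ℝ) ≤ r i)]

/-- **The sum over the families.** -/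
theorem sum_le (A : ℝ) (c : ℕ) : ∃ R₀ : ℝ, 2 ≤ R₀ ∧ ∀ r : ℕ → ℝ, R₀ ≤ r 0 →
    (∀ i, r (i + 1) = r i ^ 4) → ∀ n : ℕ,
    ∑ i ∈ Finset.range n, exp (-((r i) ^ (1 / 4 : ℝ) / 2)) * (1 + A * (r i) ^ c) ≤ 1 := by
  have h1 := (tendsto_aux A (4 * c)).eventually (gt_mem_nhds (zero_lt_one (α := ℝ)))
  obtain ⟨Y, hY⟩ := eventually_atTop.1 h1
  refine ⟨max 2 ((max Y 1) ^ 4), le_max_left _ _, fun r h0 hr n => ?_⟩
  have hr2 : 2 ≤ r 0 := (le_max_left _ _).trans h0
  have hgrow := two_pow_le hr2 hr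
  have hge : ∀ i, r 0 ≤ r i := by
    intro i
    induction i with
    | zero => exact le_rfl
    | succ i ih =>
      rw [hr]
      have h3 : (1 : ℝ) ≤ r i := by linarith
      calc r 0 ≤ r i := ih
        _ = r i ^ 1 := (pow_one _).symm
        _ ≤ r i ^ 4 := pow_le_pow_right₀ h3 (by norm_num)
  have hterm : ∀ i, exp (-((r i) ^ (1 / 4 : ℝ) / 2)) * (1 + A * (r i) ^ c) ≤
      (1 / 2 : ℝ) ^ (i + 1) := by
    intro i
    have hri : 0 < r i := lt_of_lt_of_le (by positivity) (hgrow i)
    set y : ℝ := (r i) ^ (1 / 4 : ℝ) with hy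
    have hy4 : y ^ 4 = r i := by
      rw [hy, ← rpow_natCast, ← rpow_mul hri.le]
      norm_num
    have hyY : Y ≤ y := by
      have h5 : (max Y 1) ^ 4 ≤ y ^ 4 := by
        rw [hy4]
        exact ((le_max_right _ _).trans h0).trans (hge i)
      have h6 : 0 ≤ y := rpow_nonneg hri.le _
      exact (le_max_left Y 1).trans (le_of_pow_le_pow_left₀ (by norm_num) h6 h5)
    have h7 := hY y hyY
    rw [hy4] at h7
    have h8 : r i * (exp (-(y / 2)) * (1 + A * (r i) ^ c)) < 1 := by
      have h9 : (r i) ^ c = y ^ (4 * c) := by rw [pow_mul, hy4]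
      rw [h9]
      exact h7
    have h10 : exp (-(y / 2)) * (1 + A * (r i) ^ c) ≤ 1 / r i := by
      rw [le_div_iff₀ hri, mul_comm]
      exact h8.le
    refine h10.trans ?_
    rw [one_div_pow]
    exact one_div_le_one_div_of_le (by positivity) (hgrow i)
  refine (Finset.sum_le_sum fun i _ => hterm i).trans ?_
  have h11 : ∑ i ∈ Finset.range n, (1 / 2 : ℝ) ^ (i + 1) = 1 - (1 / 2) ^ n := by
    induction n with
    | zero => simp
    | succ n ih =>
      rw [Finset.sum_range_succ, ih]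
      ring
  rw [h11]
  have h12 : (0 : ℝ) < (1 / 2) ^ n := by positivity
  linarith

/-- The last family: the rate `10 / b` costs a bounded factor if `b ≥ exp (- 1 / η)`. -/
theorem last_le {e₀ η b : ℝ} (he₀ : 0 < e₀) (he₁ : e₀ ≤ 1) (hη : 0 < η) (hη1 : η ≤ 1 / 10)
    (hb : 0 < b) (hb1 : exp (-(1 / η)) ≤ b) :
    η * (1 + log (max 1 (e₀ * (10 / b) / η))) ≤ 4 := by
  have h1 : max 1 (e₀ * (10 / b) / η) ≤ 10 / η * exp (1 / η) := by
    refine max_le ?_ ?_
    · have h2 : (1 : ℝ) ≤ 10 / η := by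
        rw [le_div_iff₀ hη]
        linarith
      have h3 : (1 : ℝ) ≤ exp (1 / η) := one_le_exp (by positivity)
      nlinarith
    · have h4 : 1 / b ≤ exp (1 / η) := by
        rw [div_le_iff₀ hb]
        have h5 : exp (1 / η) * exp (-(1 / η)) = 1 := by
          rw [← exp_add]
          simp
        calc (1 : ℝ) = exp (1 / η) * exp (-(1 / η)) := h5.symm
          _ ≤ exp (1 / η) * b := mul_le_mul_of_nonneg_left hb1 (exp_pos _).le
      have h6 : e₀ * (10 / b) / η = e₀ * (10 / η) * (1 / b) := by ring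
      rw [h6]
      have h7 : e₀ * (10 / η) ≤ 10 / η := by
        have : 0 < 10 / η := by positivity
        nlinarith
      exact mul_le_mul h7 h4 (by positivity) (by positivity)
  have h8 : log (max 1 (e₀ * (10 / b) / η)) ≤ log (10 / η * exp (1 / η)) :=
    log_le_log (lt_of_lt_of_le one_pos (le_max_left _ _)) h1
  rw [log_mul (by positivity) (exp_pos _).ne', log_exp] at h8
  have h10 : η * log (10 / η) ≤ 2 := by
    have h11 : log (10 / η) = 2 * log (Real.sqrt (10 / η)) := by
      rw [log_sqrt (by positivity)]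
      ring
    have h12 : log (Real.sqrt (10 / η)) ≤ Real.sqrt (10 / η) - 1 :=
      log_le_sub_one_of_pos (by positivity)
    have h13 : η * Real.sqrt (10 / η) = Real.sqrt (10 * η) := by
      rw [show (10 * η) = η ^ 2 * (10 / η) by field_simp, Real.sqrt_mul (by positivity),
        Real.sqrt_sq hη.le]
    have h14 : Real.sqrt (10 * η) ≤ 1 := by
      rw [Real.sqrt_le_one]
      linarith
    rw [h11]
    have h16 : η * log (Real.sqrt (10 / η)) ≤ η * (Real.sqrt (10 / η) - 1) :=
      mul_le_mul_of_nonneg_left h12 hη.le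
    nlinarith
  have h15 : η * (1 / η) = 1 := by field_simp
  calc η * (1 + log (max 1 (e₀ * (10 / b) / η))) ≤ η * (1 + (log (10 / η) + 1 / η)) := by
        gcongr
    _ = η + η * log (10 / η) + η * (1 / η) := by ring
    _ ≤ 4 := by rw [h15]; linarith

end Vale.Agent.P365.J376
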