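import Vale.Agent.P365.T1.Defs
import Vale.Agent.P365.T1.Lab125
import Vale.Agent.P365.J376.DiffEn
import Vale.Agent.P365.J376.Sum

/-!
# P365-T1, composition on the chain of `T1/Defs`.

Only used about the weights: `0 ≤ wt ≤ 1`; the profile is affine in the strengths.
-/

set_option linter.all false

namespace Vale.Agent.P365.J376

open P365L P365O P365T1 P365L.TL Matrix Complex MeasureTheory Filter Topology Set
open scoped ComplexConjugate

section gen

variable {ι : Type*} [Fintype ι] [DecidableEq ι] {A : Matrix ι ι ℝ}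

omit [Fintype ι] [DecidableEq ι] in
theorem WV_eq_Wp (E : ℝ) (e v : ι → ℝ) : WV E e v = Wp (fun x => v x - E) e := rfl

theorem measurable_coord_sub (E : ℝ) (x : ι) : Measurable fun v : ι → ℝ => v x - E :=
  Measurable.sub_const (measurable_pi_apply (X := fun _ : ι => ℝ) x) E

/-- derivative of the expected energy (finitely many functions) along an affine path -/
theorem hasDerivAt_Ex (hA : A.IsSymm) (ν : ι → Measure ℝ) [∀ x, IsProbabilityMeasure (ν x)]
    (E : ℝ) {b : ℝ} (hb : 0 < b) {u w : ι → ℝ} (hub : ∀ x, b ≤ u x) (hw0 : ∀ x, 0 ≤ w x)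
    (hw1 : ∀ x, w x ≤ 1) {κ : Type*} [Fintype κ] (f : κ → ι → ℝ) {s : ℝ} (hs : 0 ≤ s) :
    HasDerivAt (fun s => Ex ν E (fun x => u x + s * w x) fun W => ∑ k, En A W (f k))
      (-(Ex ν E (fun x => u x + s * w x) fun W => ∑ x, w x * ∑ k, -dEn A W (f k) x)) s := by
  have hH : ∀ x, u x ≤ ∑ y, u y := fun x =>
    Finset.single_le_sum (f := u) (fun y _ => hb.le.trans (hub y)) (Finset.mem_univ x)
  have ha := fun x : ι => measurable_coord_sub E x
  have hd : ∀ k, HasDerivAt
      (fun s => ∫ v, En A (Wp (fun x => v x - E) (fun x => u x + s * w x)) (f k)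
        ∂(Measure.pi ν))
      (∫ v, ∑ x, w x * dEn A (Wp (fun x => v x - E) (fun x => u x + s * w x)) (f k) x
        ∂(Measure.pi ν)) s := fun k =>
    hasDerivAt_integral_En (μ := Measure.pi ν) (Ω := ι → ℝ) hA hb
      (a := fun v x => v x - E) (u := fun _ => u) (w := fun _ => w) ha
      (fun x => measurable_const) (fun x => measurable_const) (fun _ x => hub x)
      (fun _ x => hH x) (fun _ x => hw0 x) (fun _ x => hw1 x) (f k) hs
  have hlow : ∀ t : ℝ, -(b / 2) < t → ∀ x, 0 < u x + t * w x := by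
    intro t ht x
    have h1 := hub x
    have h2 := hw0 x
    have h3 := hw1 x
    have h4 : -(b / 2) * w x ≤ t * w x := mul_le_mul_of_nonneg_right ht.le h2
    nlinarith
  have hint : ∀ t : ℝ, -(b / 2) < t → ∀ k, Integrable
      (fun v : ι → ℝ => En A (Wp (fun x => v x - E) (fun x => u x + t * w x)) (f k))
      (Measure.pi ν) := fun t ht k =>
    integrable_En_Wp (a := fun (v : ι → ℝ) x => v x - E) (h := fun _ x => u x + t * w x) hA ha
      (fun x => measurable_const) (fun _ x => hlow t ht x) (f k)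
  have h1 := HasDerivAt.fun_sum (u := Finset.univ) fun k _ => hd k
  have h2 : ∀ᶠ t in 𝓝 s, Ex ν E (fun x => u x + t * w x) (fun W => ∑ k, En A W (f k)) =
      ∑ k, ∫ v, En A (Wp (fun x => v x - E) (fun x => u x + t * w x)) (f k)
        ∂(Measure.pi ν) := by
    filter_upwards [lt_mem_nhds (show -(b / 2) < s by linarith)] with t ht
    rw [Ex, ← integral_finset_sum _ fun k _ => hint t ht k]
    rfl
  have h3 : -(Ex ν E (fun x => u x + s * w x) fun W => ∑ x, w x * ∑ k, -dEn A W (f k) x) =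
      ∑ k, ∫ v, ∑ x, w x * dEn A (Wp (fun x => v x - E) (fun x => u x + s * w x)) (f k) x
        ∂(Measure.pi ν) := by
    rw [← integral_finset_sum, Ex, ← integral_neg]
    · congr 1
      funext v
      rw [Finset.sum_comm, ← Finset.sum_neg_distrib]
      refine Finset.sum_congr rfl fun x _ => ?_
      rw [Finset.sum_neg_distrib, mul_neg, neg_neg, Finset.mul_sum]
      rfl
    · intro k _
      refine integrable_finset_sum _ fun x _ => Integrable.const_mul ?_ _
      obtain ⟨C, hC0, hC⟩ := dEn_bounded (A := A) (H := ∑ y, u y + s) hA hb (f k) x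
      refine Integrable.mono' (integrable_const C)
        (measurable_dEn_Wp (a := fun (v : ι → ℝ) x => v x - E)
          (h := fun _ x => u x + s * w x) ha (fun x => measurable_const) (f k)
          x).aestronglyMeasurable (Eventually.of_forall fun v => ?_)
      rw [Real.norm_eq_abs]
      refine hC _ _ (fun y => ?_) (fun y => ?_)
      · have := mul_nonneg hs (hw0 y)
        linarith [hub y]
      · have h5 : s * w y ≤ s * 1 := mul_le_mul_of_nonneg_left (hw1 y) hs
        linarith [hH y]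
  rw [h3]
  exact h1.congr_of_eventuallyEq h2

theorem Ex_nonneg (ν : ι → Measure ℝ) (E : ℝ) (e : ι → ℝ) {F : (ι → ℂ) → ℝ}
    (hF : ∀ v, 0 ≤ F (WV E e v)) : 0 ≤ Ex ν E e F :=
  integral_nonneg hF

end gen

section chain

variable (D : Chain) {N : ℕ} [NeZero N]

/-- standing (soft) hypotheses on a chain -/
structure Soft (D : Chain) (N : ℕ) [NeZero N] : Prop where
  b_pos : 0 < D.b
  prob : ∀ k, IsProbabilityMeasure (D.ν k)
  p_nonneg : ∀ k, 0 ≤ D.p k
  ini_nonneg : ∀ j ≤ D.I + 1, 0 ≤ D.ini j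
  wt_nonneg : ∀ j ≤ D.I + 1, ∀ l (x : Tor N), 0 ≤ D.wt j l x
  wt_le : ∀ j ≤ D.I + 1, ∀ l (x : Tor N), D.wt j l x ≤ 1

variable {D}

theorem prof_ev {j : ℕ} (hj : j ≤ D.I + 1) (s : ℝ) (l : Tor N → Lab D.K) (x : Tor N) :
    D.prof (D.ev j s) l x = D.prof (D.ev j 0) l x + s * D.wt j l x := by
  unfold Chain.prof
  have h1 : ∀ k, D.ev j s k * D.wt k l x =
      D.ev j 0 k * D.wt k l x + if k = j then s * D.wt j l x else 0 := by
    intro k
    unfold Chain.ev
    by_cases h : k = j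
    · subst h
      simp
    · simp [h]
  rw [Finset.sum_congr rfl fun k _ => h1 k, Finset.sum_add_distrib, Finset.sum_ite_eq',
    if_pos (Finset.mem_range.2 (by omega))]
  ring

theorem ev_nonneg (hS : Soft D N) {j : ℕ} {s : ℝ} (hs : 0 ≤ s) {k : ℕ} (hk : k ≤ D.I + 1) :
    0 ≤ D.ev j s k := by
  unfold Chain.ev
  split_ifs
  · exact le_rfl
  · exact hs
  · exact hS.ini_nonneg k hk

theorem b_le_prof (hS : Soft D N) {j : ℕ} {s : ℝ} (hs : 0 ≤ s) (l : Tor N → Lab D.K)
    (x : Tor N) : D.b ≤ D.prof (D.ev j s) l x := by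
  unfold Chain.prof
  refine le_add_of_nonneg_right (Finset.sum_nonneg fun k hk => ?_)
  have hk' : k ≤ D.I + 1 := by
    have := Finset.mem_range.1 hk
    omega
  exact mul_nonneg (ev_nonneg hS hs hk') (hS.wt_nonneg k hk' l x)

/-- **C1**: derivative of the functional in the strength of level `j` -/
theorem hasDerivAt_Phi (hS : Soft D N) (E : ℝ) {j : ℕ} (hj : j ≤ D.I + 1) {s : ℝ}
    (hs : 0 ≤ s) :
    HasDerivAt (fun s => D.Phi N E (D.ev j s)) (-(D.Cost N E (D.ev j s) j)) s := by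
  haveI := hS.prob
  have hp : ∀ (l : Tor N → Lab D.K) (t : ℝ), D.prof (D.ev j t) l =
      fun x => D.prof (D.ev j 0) l x + t * D.wt j l x := fun l t =>
    funext fun x => prof_ev hj t l x
  have h1 : ∀ l : Tor N → Lab D.K, HasDerivAt
      (fun s => D.pr l * Ex (fun x => D.ν (l x)) E (D.prof (D.ev j s) l)
        fun W => ∑ k : Fin 4, En (AT N) W (phi N k))
      (D.pr l * -(Ex (fun x => D.ν (l x)) E (D.prof (D.ev j s) l)
        fun W => ∑ x, D.wt j l x * ∑ k : Fin 4, -dEn (AT N) W (phi N k) x)) s := by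
    intro l
    refine HasDerivAt.const_mul _ ?_
    rw [hp l s]
    have h0 : (fun s => Ex (fun x => D.ν (l x)) E (D.prof (D.ev j s) l)
        fun W => ∑ k : Fin 4, En (AT N) W (phi N k)) = fun s => Ex (fun x => D.ν (l x)) E
          (fun x => D.prof (D.ev j 0) l x + s * D.wt j l x)
        fun W => ∑ k : Fin 4, En (AT N) W (phi N k) := by
      funext t
      rw [hp l t]
    rw [h0]
    exact hasDerivAt_Ex (AT_symm N) (fun x => D.ν (l x)) E hS.b_pos
      (fun x => b_le_prof hS le_rfl l x) (fun x => hS.wt_nonneg j hj l x)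
      (fun x => hS.wt_le j hj l x) (fun k : Fin 4 => phi N k) hs
  have h2 := HasDerivAt.fun_sum (u := Finset.univ) fun l _ => h1 l
  have h3 : -(D.Cost N E (D.ev j s) j) = ∑ l : Tor N → Lab D.K,
      D.pr l * -(Ex (fun x => D.ν (l x)) E (D.prof (D.ev j s) l)
        fun W => ∑ x, D.wt j l x * ∑ k : Fin 4, -dEn (AT N) W (phi N k) x) := by
    rw [Chain.Cost, Chain.Av, ← Finset.sum_neg_distrib]
    refine Finset.sum_congr rfl fun l _ => ?_
    rw [mul_neg]
  rw [h3]
  exact h2

theorem pr_nonneg (hS : Soft D N) (l : Tor N → Lab D.K) : 0 ≤ D.pr l :=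
  Finset.prod_nonneg fun x _ => hS.p_nonneg (l x)

theorem Phi_nonneg (hS : Soft D N) (E : ℝ) {j : ℕ} {s : ℝ} (hs : 0 ≤ s) :
    0 ≤ D.Phi N E (D.ev j s) := by
  refine Finset.sum_nonneg fun l _ => mul_nonneg (pr_nonneg hS l) ?_
  refine Ex_nonneg _ _ _ fun v => Finset.sum_nonneg fun k _ => ?_
  rw [WV_eq_Wp]
  exact En_nonneg' _ _ (fun x => hS.b_pos.le.trans (b_le_prof hS hs l x)) _

/-- lowering one level, rate `min(η/s, K)` against `Phi + c` -/
theorem level_min (hS : Soft D N) (E : ℝ) {j : ℕ} (hj : j ≤ D.I + 1) {η K c : ℝ}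
    (hi : 0 < D.ini j) (hη : 0 < η) (hK : 0 < K) (hc : 0 ≤ c)
    (h1 : ∀ s ∈ Ioo 0 (D.ini j),
      D.Cost N E (D.ev j s) j ≤ K * (D.Phi N E (D.ev j s) + c))
    (h2 : ∀ s ∈ Ioo 0 (D.ini j),
      D.Cost N E (D.ev j s) j ≤ η / s * (D.Phi N E (D.ev j s) + c)) :
    D.Phi N E (D.ev j 0) + c ≤ (D.Phi N E (D.ev j (D.ini j)) + c) *
      Real.exp (η * (1 + Real.log (max 1 (D.ini j * K / η)))) := by
  have hd : ∀ s, 0 ≤ s → HasDerivAt (fun s => D.Phi N E (D.ev j s) + c)
      (-(D.Cost N E (D.ev j s) j)) s := fun s hs => (hasDerivAt_Phi hS E hj hs).add_const c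
  refine gron_min (Φ := fun s => D.Phi N E (D.ev j s) + c)
    (Φ' := fun s => -(D.Cost N E (D.ev j s) j)) hi hη hK
    (fun s hs => (hd s hs.1).continuousAt.continuousWithinAt) (fun s hs => hd s hs.1.le)
    (fun s hs => add_nonneg (Phi_nonneg hS E hs.1) hc) (fun s hs => ?_) (fun s hs => ?_)
  · rw [neg_neg]
    exact h1 s hs
  · rw [neg_neg]
    exact h2 s hs

/-- lowering one level, constant rate -/
theorem level_const (hS : Soft D N) (E : ℝ) {j : ℕ} (hj : j ≤ D.I + 1) {K c : ℝ}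
    (h1 : ∀ s ∈ Ioo 0 (D.ini j),
      D.Cost N E (D.ev j s) j ≤ K * (D.Phi N E (D.ev j s) + c)) :
    D.Phi N E (D.ev j 0) + c ≤ (D.Phi N E (D.ev j (D.ini j)) + c) *
      Real.exp (K * D.ini j) := by
  have hd : ∀ s, 0 ≤ s → HasDerivAt (fun s => D.Phi N E (D.ev j s) + c)
      (-(D.Cost N E (D.ev j s) j)) s := fun s hs => (hasDerivAt_Phi hS E hj hs).add_const c
  have h3 := gron_const (Φ := fun s => D.Phi N E (D.ev j s) + c)
    (Φ' := fun s => -(D.Cost N E (D.ev j s) j)) (K := K) (hS.ini_nonneg j hj)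
    (fun s hs => (hd s hs.1).continuousAt.continuousWithinAt) (fun s hs => hd s hs.1.le)
    (fun s hs => by rw [neg_neg]; exact h1 s hs)
  rw [sub_zero] at h3
  exact h3

/-- passing from level `j` (off) to level `j + 1` (full) changes nothing -/
theorem ev_succ (D : Chain) (j : ℕ) : D.ev (j + 1) (D.ini (j + 1)) = D.ev j 0 := by
  funext k
  unfold Chain.ev
  by_cases h1 : k < j
  · rw [if_pos h1, if_pos (by omega)]
  · by_cases h2 : k = j
    · subst h2
      rw [if_pos (by omega), if_neg (by omega), if_pos rfl]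
    · by_cases h3 : k = j + 1
      · subst h3
        rw [if_neg (by omega), if_pos rfl, if_neg (by omega), if_neg (by omega)]
      · rw [if_neg (by omega), if_neg h3, if_neg h1, if_neg h2]

/-- **C2**: the composition -/
theorem compose (hS : Soft D N) (E : ℝ) {c M : ℝ} (hc : 0 ≤ c) {K η : ℕ → ℝ}
    (hK : ∀ i ≤ D.I, 0 < K i) (hη : ∀ i ≤ D.I, 0 < η i) (hi : ∀ j ≤ D.I + 1, 0 < D.ini j)
    (start : D.Phi N E (D.ev 0 (D.ini 0)) ≤ M)
    (crude : ∀ j ≤ D.I, ∀ s ∈ Ioo 0 (D.ini j),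
      D.Cost N E (D.ev j s) j ≤ K j * (D.Phi N E (D.ev j s) + c))
    (hub : ∀ i ≤ D.I, ∀ s ∈ Ioo 0 (D.ini (i + 1)),
      D.Cost N E (D.ev (i + 1) s) (i + 1) ≤ η i / s * (D.Phi N E (D.ev (i + 1) s) + c))
    (triv : ∀ s ∈ Ioo 0 (D.ini (D.I + 1)),
      D.Cost N E (D.ev (D.I + 1) s) (D.I + 1) ≤
        10 / D.b * (D.Phi N E (D.ev (D.I + 1) s) + c)) :
    D.Phi N E (D.ev (D.I + 1) 0) + c ≤ (M + c) *
      Real.exp (K 0 * D.ini 0 +
        ∑ i ∈ Finset.range D.I, η i * (1 + Real.log (max 1 (D.ini (i + 1) * K (i + 1) / η i))) +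
        η D.I * (1 + Real.log (max 1 (D.ini (D.I + 1) * (10 / D.b) / η D.I)))) := by
  set a : ℕ → ℝ := fun j => D.Phi N E (D.ev j (D.ini j)) + c with ha
  have hstep : ∀ j, D.Phi N E (D.ev j 0) + c = a (j + 1) := fun j => by
    rw [ha]
    simp only
    rw [ev_succ]
  have h0 : a 0 ≤ M + c := by
    have := start
    simp only [ha]
    linarith
  have h1 : a 1 ≤ a 0 * Real.exp (K 0 * D.ini 0) := by
    rw [← hstep 0]
    exact level_const hS E (Nat.zero_le _) (crude 0 (Nat.zero_le _))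
  have h2 : ∀ i < D.I, a (i + 2) ≤ a (i + 1) *
      Real.exp (η i * (1 + Real.log (max 1 (D.ini (i + 1) * K (i + 1) / η i)))) := by
    intro i hi'
    rw [← hstep (i + 1)]
    exact level_min hS E (by omega) (hi _ (by omega)) (hη i (by omega)) (hK (i + 1) (by omega)) hc
      (crude (i + 1) (by omega)) (hub i (by omega))
  have h3 : ∀ n ≤ D.I, a (n + 1) ≤ a 1 * Real.exp (∑ i ∈ Finset.range n,
      η i * (1 + Real.log (max 1 (D.ini (i + 1) * K (i + 1) / η i)))) := by
    intro n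
    induction n with
    | zero =>
      intro _
      simp
    | succ n ih =>
      intro hn
      rw [Finset.sum_range_succ, Real.exp_add, ← mul_assoc]
      exact (h2 n (by omega)).trans
        (mul_le_mul_of_nonneg_right (ih (by omega)) (Real.exp_pos _).le)
  have h4 : a (D.I + 2) ≤ a (D.I + 1) *
      Real.exp (η D.I * (1 + Real.log (max 1 (D.ini (D.I + 1) * (10 / D.b) / η D.I)))) := by
    rw [← hstep (D.I + 1)]
    exact level_min hS E le_rfl (hi _ le_rfl) (hη _ le_rfl)
      (div_pos (by norm_num) hS.b_pos) hc triv (hub _ le_rfl)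
  rw [hstep (D.I + 1), Real.exp_add, Real.exp_add]
  calc a (D.I + 2) ≤ a (D.I + 1) * _ := h4
    _ ≤ (a 1 * _) * _ := mul_le_mul_of_nonneg_right (h3 D.I le_rfl) (Real.exp_pos _).le
    _ ≤ ((M + c) * Real.exp (K 0 * D.ini 0) * _) * _ := by
        refine mul_le_mul_of_nonneg_right (mul_le_mul_of_nonneg_right ?_ (Real.exp_pos _).le)
          (Real.exp_pos _).le
        exact h1.trans (mul_le_mul_of_nonneg_right h0 (Real.exp_pos _).le)
    _ = _ := by ring

/-- **C3**: at the end the labels disappear -/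
theorem Phi_end (hS : Soft D N) (E : ℝ) {ρ : Measure ℝ}
    (hmix : ∑ k, ENNReal.ofReal (D.p k) • D.ν k = ρ) :
    D.Phi N E (D.ev (D.I + 1) 0) =
      ∑ k : Fin 4, ∫ v, En (AT N) (Wh E D.b v) (phi N k) ∂(Measure.pi fun _ : Tor N => ρ) := by
  haveI := hS.prob
  haveI hfin : IsFiniteMeasure (∑ k, ENNReal.ofReal (D.p k) • D.ν k) := by
    refine ⟨?_⟩
    rw [Measure.finset_sum_apply]
    refine ENNReal.sum_lt_top.2 fun l _ => ?_
    rw [Measure.smul_apply, smul_eq_mul]
    exact ENNReal.mul_lt_top ENNReal.ofReal_lt_top (measure_lt_top _ _)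
  have hprof : ∀ l : Tor N → Lab D.K, D.prof (D.ev (D.I + 1) 0) l = fun _ => D.b := by
    intro l
    funext x
    unfold Chain.prof
    rw [Finset.sum_eq_zero, add_zero]
    intro k hk
    have hk' : k < D.I + 2 := Finset.mem_range.1 hk
    have : D.ev (D.I + 1) 0 k = 0 := by
      unfold Chain.ev
      split_ifs with h1 h2
      · rfl
      · rfl
      · omega
    rw [this, zero_mul]
  have hW : ∀ v : Tor N → ℝ, WV E (fun _ => D.b) v = Wh E D.b v := by
    intro v
    funext x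
    unfold WV Wh
    push_cast
    ring
  have hint : ∀ (m : Measure (Tor N → ℝ)) [IsFiniteMeasure m] (k : Fin 4),
      Integrable (fun v => En (AT N) (Wh E D.b v) (phi N k)) m := by
    intro m _ k
    refine Integrable.mono' (integrable_const (∑ x, ∑ y, (phi N k x - phi N k y) ^ 2))
      (measurable_En E D.b _).aestronglyMeasurable (Eventually.of_forall fun v => ?_)
    rw [Real.norm_eq_abs]
    exact En_bounded hS.b_pos _ v
  have h1 := Lab125.integral_pi_mix (ι := Tor N) (Λ := Lab D.K) (fun _ => D.p)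
    (fun _ k => hS.p_nonneg k) (fun _ => D.ν)
    (fun v => ∑ k : Fin 4, En (AT N) (Wh E D.b v) (phi N k))
    (fun L => integrable_finset_sum _ fun k _ => hint _ k)
  rw [hmix] at h1
  subst hmix
  rw [integral_finset_sum _ fun k _ => hint _ k] at h1
  rw [h1, Chain.Phi, Chain.Av]
  refine Finset.sum_congr rfl fun l _ => ?_
  rw [Ex, hprof l, smul_eq_mul]
  simp only [hW]
  rfl

end chain

end Vale.Agent.P365.J376
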