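import Vale.Agent.P365.T1G.Main

set_option linter.all false

/-!
# P365 T1: the final statement from the output of the flow.
-/

namespace P365L

open MeasureTheory ProbabilityTheory Complex
open scoped ENNReal InnerProductSpace

/-- `H = hop + V` has purely absolutely continuous spectrum on `I`: the spectral projection of `I`
is not zero (some nonzero vector has its spectral measure carried by `I`), and every vector in its
range (every vector whose spectral measure is carried by `I`) has an absolutely continuous spectral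
measure -/
def PurelyAC (V : Site → ℝ) (I : Set ℝ) : Prop :=
  (∃ ψ : L2, ψ ≠ 0 ∧ ∃ μ : Measure ℝ, IsSpectralMeasure V ψ μ ∧ μ Iᶜ = 0) ∧
    ∀ (ψ : L2) (μ : Measure ℝ), IsSpectralMeasure V ψ μ → μ Iᶜ = 0 → μ ≪ volume

namespace J376

/-- a vector whose spectral measure vanishes is zero -/
theorem eq_zero_of_spectral_zero {V : Site → ℝ} {ψ : L2}
    (h : IsSpectralMeasure V ψ (0 : Measure ℝ)) : ψ = 0 := by
  obtain ⟨u, hu, hi⟩ := h.transform Complex.I (by simp)
  rw [integral_zero_measure] at hi
  have h1 := resolvent_energy (z := Complex.I) (by simp) hu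
  rw [hi] at h1
  simp only [Complex.zero_im, Complex.I_im, one_mul] at h1
  have h2 : u = 0 := by
    have h3 : ‖u‖ ^ 2 = 0 := h1.symm
    exact norm_eq_zero.1 (pow_eq_zero_iff (two_ne_zero) |>.1 h3)
  subst h2
  ext x
  have := hu x
  simp only [hop, lp.coeFn_zero, Pi.zero_apply, add_zero, mul_zero] at this
  rw [← this]
  simp

/-- if all spectral measures are singular, there is no purely absolutely continuous spectrum -/
theorem not_purelyAC {V : Site → ℝ}
    (h : ∀ (ψ : L2) (μ : Measure ℝ), IsSpectralMeasure V ψ μ → μ ⟂ₘ (volume : Measure ℝ))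
    (I : Set ℝ) : ¬ PurelyAC V I := by
  rintro ⟨⟨ψ, hψ, μ, hμ, hI⟩, hac⟩
  have h1 : μ ≪ volume := hac ψ μ hμ hI
  have h2 : μ = 0 := Measure.eq_zero_of_absolutelyContinuous_of_mutuallySingular h1 (h ψ μ hμ)
  subst h2
  exact hψ (eq_zero_of_spectral_zero hμ)

/-- the final statement from the output of the flow -/
theorem final (hflow : ∀ lam : ℝ, 0 < lam → TL.FlowIn (TL.nuL lam) lam) :
    ∀ {Ω : Type} [MeasurableSpace Ω] (P : Measure Ω) [IsProbabilityMeasure P]
      (w : Site → Ω → ℝ), (∀ x, Measurable (w x)) → iIndepFun w P →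
      (∀ x, P.map (w x) = cond volume (Set.Icc (-1) 1)) → ∀ lam : ℝ, 0 < lam →
      ∀ᵐ o ∂P,
        (∀ (ψ : L2) (μ : Measure ℝ), IsSpectralMeasure (fun x => lam * w x o) ψ μ →
          μ ⟂ₘ (volume : Measure ℝ)) ∧
        ∀ I : Set ℝ, ¬ PurelyAC (fun x => lam * w x o) I := by
  intro Ω _ P _ w hm hi hl lam hlam
  filter_upwards [TL.noAC_of_flow hlam (hflow lam hlam) hm hi hl] with o ho
  exact ⟨ho, not_purelyAC ho⟩

end J376

end P365L
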