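import Vale.Agent.P365.J376.Chain

/-!
# P365-T1, composition along general paths of profiles (labels × potentials).

Stage `i`: profile `u i + s • w i`, `s` from `1` down to `t i`, and
`u i + t i • w i = u (i+1) + w (i+1)`; last stage: everything above the background `b` goes to zero
once it is at most `b` (trivial cost).
-/

set_option linter.all false

namespace Vale.Agent.P365.J376

open P365L P365O P365T1 P365L.TL Matrix Complex MeasureTheory Filter Topology Set
open scoped ComplexConjugate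

section gen

variable {ι : Type*} [Fintype ι] [DecidableEq ι] (A : Matrix ι ι ℝ)
  {Λ : Type*} [Fintype Λ] (p : Λ → ℝ) (ν : Λ → Measure ℝ) (E : ℝ)
  {κ : Type*} [Fintype κ] (f : κ → ι → ℝ)

/-- average over labels and potentials -/
noncomputable def AvG (e : (ι → Λ) → ι → ℝ) (G : (ι → Λ) → (ι → ℂ) → ℝ) : ℝ :=
  ∑ l : ι → Λ, (∏ x, p (l x)) * Ex (fun x => ν (l x)) E (e l) (G l)

/-- the functional -/
noncomputable def PhiG (e : (ι → Λ) → ι → ℝ) : ℝ :=
  AvG p ν E e fun _ W => ∑ k, En A W (f k)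

/-- the cost of lowering in direction `w` -/
noncomputable def CostG (e w : (ι → Λ) → ι → ℝ) : ℝ :=
  AvG p ν E e fun l W => ∑ x, w l x * ∑ k, -dEn A W (f k) x

variable {A p ν E f}

/-- derivative of the expected energy, weights bounded by any constant -/
theorem hasDerivAt_ExG (hA : A.IsSymm) (m : ι → Measure ℝ) [∀ x, IsProbabilityMeasure (m x)]
    (E : ℝ) {b Wm : ℝ} (hb : 0 < b) (hWm : 0 < Wm) {u w : ι → ℝ} (hub : ∀ x, b ≤ u x)
    (hw0 : ∀ x, 0 ≤ w x) (hw1 : ∀ x, w x ≤ Wm) (f : κ → ι → ℝ) {s : ℝ} (hs : 0 ≤ s) :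
    HasDerivAt (fun s => Ex m E (fun x => u x + s * w x) fun W => ∑ k, En A W (f k))
      (-(Ex m E (fun x => u x + s * w x) fun W => ∑ x, w x * ∑ k, -dEn A W (f k) x)) s := by
  have h1 := hasDerivAt_Ex hA m E hb hub (w := fun x => w x / Wm)
    (fun x => div_nonneg (hw0 x) hWm.le) (fun x => (div_le_one hWm).2 (hw1 x)) f
    (s := s * Wm) (mul_nonneg hs hWm.le)
  have h2 := HasDerivAt.comp s h1 (hasDerivAt_mul_const (x := s) Wm)
  have e1 : ∀ t : ℝ, (fun x => u x + t * Wm * (w x / Wm)) = fun x => u x + t * w x := by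
    intro t
    funext x
    field_simp
  have e2 : ((fun s => Ex m E (fun x => u x + s * (w x / Wm)) fun W => ∑ k, En A W (f k)) ∘
      fun x => x * Wm) = fun s => Ex m E (fun x => u x + s * w x) fun W => ∑ k, En A W (f k) := by
    funext t
    simp only [Function.comp_apply]
    rw [e1 t]
  rw [e2] at h2
  have e3 : (-(Ex m E (fun x => u x + s * w x) fun W => ∑ x, w x * ∑ k, -dEn A W (f k) x)) =
      (-(Ex m E (fun x => u x + s * Wm * (w x / Wm)) fun W =>
        ∑ x, w x / Wm * ∑ k, -dEn A W (f k) x)) * Wm := by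
    rw [e1 s, neg_mul]
    congr 1
    rw [Ex, Ex, ← integral_mul_const]
    congr 1
    funext v
    rw [Finset.sum_mul]
    refine Finset.sum_congr rfl fun x _ => ?_
    field_simp
  rw [e3]
  exact h2

theorem hasDerivAt_PhiG (hA : A.IsSymm) [∀ k, IsProbabilityMeasure (ν k)] {b Wm : ℝ}
    (hb : 0 < b) (hWm : 0 < Wm) {u w : (ι → Λ) → ι → ℝ} (hub : ∀ l x, b ≤ u l x)
    (hw0 : ∀ l x, 0 ≤ w l x) (hw1 : ∀ l x, w l x ≤ Wm) {s : ℝ} (hs : 0 ≤ s) :
    HasDerivAt (fun s : ℝ => PhiG A p ν E f (fun l x => u l x + s * w l x))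
      (-(CostG A p ν E f (fun l x => u l x + s * w l x) w)) s := by
  have h1 : ∀ l : ι → Λ, HasDerivAt
      (fun s : ℝ => (∏ x, p (l x)) * Ex (fun x => ν (l x)) E (fun x => u l x + s * w l x)
        fun W => ∑ k, En A W (f k))
      ((∏ x, p (l x)) * -(Ex (fun x => ν (l x)) E (fun x => u l x + s * w l x)
        fun W => ∑ x, w l x * ∑ k, -dEn A W (f k) x)) s := fun l =>
    HasDerivAt.const_mul _ (hasDerivAt_ExG hA (fun x => ν (l x)) E hb hWm (hub l) (hw0 l)
      (hw1 l) f hs)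
  have h2 := HasDerivAt.fun_sum (u := Finset.univ) fun l _ => h1 l
  have h3 : -(CostG A p ν E f (fun l x => u l x + s * w l x) w) = ∑ l : ι → Λ,
      (∏ x, p (l x)) * -(Ex (fun x => ν (l x)) E (fun x => u l x + s * w l x)
        fun W => ∑ x, w l x * ∑ k, -dEn A W (f k) x) := by
    rw [CostG, AvG, ← Finset.sum_neg_distrib]
    refine Finset.sum_congr rfl fun l _ => ?_
    rw [mul_neg]
  rw [h3]
  exact h2

theorem AvG_mono (hp : ∀ k, 0 ≤ p k) {e : (ι → Λ) → ι → ℝ} {G G' : (ι → Λ) → (ι → ℂ) → ℝ}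
    (hG : ∀ l, Integrable (fun v => G l (WV E (e l) v)) (Measure.pi fun x => ν (l x)))
    (hG' : ∀ l, Integrable (fun v => G' l (WV E (e l) v)) (Measure.pi fun x => ν (l x)))
    (h : ∀ l v, G l (WV E (e l) v) ≤ G' l (WV E (e l) v)) :
    AvG p ν E e G ≤ AvG p ν E e G' :=
  Finset.sum_le_sum fun l _ => mul_le_mul_of_nonneg_left
    (integral_mono (hG l) (hG' l) (h l)) (Finset.prod_nonneg fun x _ => hp _)

theorem PhiG_nonneg (hp : ∀ k, 0 ≤ p k) {e : (ι → Λ) → ι → ℝ} (he : ∀ l x, 0 ≤ e l x) :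
    0 ≤ PhiG A p ν E f e := by
  refine Finset.sum_nonneg fun l _ => mul_nonneg (Finset.prod_nonneg fun x _ => hp _) ?_
  refine Ex_nonneg _ _ _ fun v => Finset.sum_nonneg fun k _ => ?_
  rw [WV_eq_Wp]
  exact En_nonneg' _ _ (he l) _

/-- **stage**: rate `η / s` from `1` down to `t` -/
theorem stage_inv (hA : A.IsSymm) [∀ k, IsProbabilityMeasure (ν k)] {b Wm : ℝ}
    (hb : 0 < b) (hWm : 0 < Wm) {u w : (ι → Λ) → ι → ℝ} (hub : ∀ l x, b ≤ u l x)
    (hw0 : ∀ l x, 0 ≤ w l x) (hw1 : ∀ l x, w l x ≤ Wm) {t η c : ℝ} (ht : 0 < t) (ht1 : t ≤ 1)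
    (h : ∀ s ∈ Ioo t 1, CostG A p ν E f (fun l x => u l x + s * w l x) w ≤
      η / s * (PhiG A p ν E f (fun l x => u l x + s * w l x) + c)) :
    PhiG A p ν E f (fun l x => u l x + t * w l x) + c ≤
      (PhiG A p ν E f (fun l x => u l x + w l x) + c) * Real.exp (η * Real.log (1 / t)) := by
  have hd : ∀ s, 0 ≤ s → HasDerivAt
      (fun s : ℝ => PhiG A p ν E f (fun l x => u l x + s * w l x) + c)
      (-(CostG A p ν E f (fun l x => u l x + s * w l x) w)) s := fun s hs =>
    (hasDerivAt_PhiG hA hb hWm hub hw0 hw1 hs).add_const c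
  have h3 := gron_inv (Φ := fun s : ℝ => PhiG A p ν E f (fun l x => u l x + s * w l x) + c)
    (Φ' := fun s => -(CostG A p ν E f (fun l x => u l x + s * w l x) w)) (η := η) ht ht1
    (fun s hs => (hd s (ht.le.trans hs.1)).continuousAt.continuousWithinAt)
    (fun s hs => hd s (ht.le.trans hs.1.le)) (fun s hs => by rw [neg_neg]; exact h s hs)
  simp only [one_mul] at h3
  exact h3

/-- **stage**, rate `min(η / s, K)` from `1` down to `0` -/
theorem stage_min (hA : A.IsSymm) [∀ k, IsProbabilityMeasure (ν k)] (hp : ∀ k, 0 ≤ p k)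
    {b Wm : ℝ} (hb : 0 < b) (hWm : 0 < Wm) {u w : (ι → Λ) → ι → ℝ} (hub : ∀ l x, b ≤ u l x)
    (hw0 : ∀ l x, 0 ≤ w l x) (hw1 : ∀ l x, w l x ≤ Wm) {η K c : ℝ} (hη : 0 < η) (hK : 0 < K)
    (hc : 0 ≤ c)
    (h1 : ∀ s ∈ Ioo (0 : ℝ) 1, CostG A p ν E f (fun l x => u l x + s * w l x) w ≤
      K * (PhiG A p ν E f (fun l x => u l x + s * w l x) + c))
    (h2 : ∀ s ∈ Ioo (0 : ℝ) 1, CostG A p ν E f (fun l x => u l x + s * w l x) w ≤
      η / s * (PhiG A p ν E f (fun l x => u l x + s * w l x) + c)) :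
    PhiG A p ν E f u + c ≤
      (PhiG A p ν E f (fun l x => u l x + w l x) + c) *
        Real.exp (η * (1 + Real.log (max 1 (K / η)))) := by
  have hd : ∀ s, 0 ≤ s → HasDerivAt
      (fun s : ℝ => PhiG A p ν E f (fun l x => u l x + s * w l x) + c)
      (-(CostG A p ν E f (fun l x => u l x + s * w l x) w)) s := fun s hs =>
    (hasDerivAt_PhiG hA hb hWm hub hw0 hw1 hs).add_const c
  have h3 := gron_min (Φ := fun s : ℝ => PhiG A p ν E f (fun l x => u l x + s * w l x) + c)
    (Φ' := fun s => -(CostG A p ν E f (fun l x => u l x + s * w l x) w)) one_pos hη hK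
    (fun s hs => (hd s hs.1).continuousAt.continuousWithinAt)
    (fun s hs => hd s hs.1.le)
    (fun s hs => add_nonneg (PhiG_nonneg hp fun l x => by
      have := mul_nonneg hs.1 (hw0 l x)
      have := hub l x
      linarith) hc)
    (fun s hs => by rw [neg_neg]; exact h1 s hs)
    (fun s hs => by rw [neg_neg]; exact h2 s hs)
  simp only [one_mul, zero_mul, add_zero] at h3
  exact h3

theorem integrable_sum_En (hA : A.IsSymm) (m : Measure (ι → ℝ)) [IsFiniteMeasure m] (E : ℝ)
    {e : ι → ℝ} (he : ∀ x, 0 < e x) (f : κ → ι → ℝ) :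
    Integrable (fun v => ∑ k, En A (WV E e v) (f k)) m := by
  refine integrable_finset_sum _ fun k _ => ?_
  exact integrable_En_Wp (a := fun (v : ι → ℝ) x => v x - E) (h := fun _ => e) hA
    (fun x => measurable_coord_sub E x) (fun x => measurable_const) (fun _ x => he x) (f k)

theorem integrable_sum_dEn (hA : A.IsSymm) (m : Measure (ι → ℝ)) [IsFiniteMeasure m] (E : ℝ)
    {e : ι → ℝ} (he : ∀ x, 0 < e x) (f : κ → ι → ℝ) (w : ι → ℝ) :
    Integrable (fun v => ∑ x, w x * ∑ k, -dEn A (WV E e v) (f k) x) m := by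
  obtain ⟨b, hb, hbe⟩ : ∃ b : ℝ, 0 < b ∧ ∀ x, b ≤ e x := by
    rcases isEmpty_or_nonempty ι with h | h
    · exact ⟨1, one_pos, fun x => (h.false x).elim⟩
    · obtain ⟨x₀, hx₀⟩ := Finite.exists_min e
      exact ⟨e x₀, he x₀, hx₀⟩
  refine integrable_finset_sum _ fun x _ => Integrable.const_mul
    (integrable_finset_sum _ fun k _ => Integrable.neg ?_) _
  obtain ⟨C, hC0, hC⟩ := dEn_bounded (A := A) (H := ∑ y, e y) hA hb (f k) x
  refine Integrable.mono' (integrable_const C)
    (measurable_dEn_Wp (a := fun (v : ι → ℝ) x => v x - E)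
      (h := fun _ => e) (fun x => measurable_coord_sub E x) (fun x => measurable_const) (f k)
      x).aestronglyMeasurable (Eventually.of_forall fun v => ?_)
  rw [Real.norm_eq_abs]
  exact hC _ _ hbe fun y => Finset.single_le_sum (f := e) (fun y _ => (he y).le)
    (Finset.mem_univ y)

/-- energy as a sum of `e_x M_x` -/
theorem En_eq_sum_Mf (W : ι → ℂ) (g : ι → ℝ) :
    En A W g = ∑ x, (-(W x).im) * Mf A W g x := by
  unfold En Mf
  refine Finset.sum_congr rfl fun x _ => ?_
  rw [Finset.mul_sum]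
  refine Finset.sum_congr rfl fun y _ => ?_
  ring

theorem integrable_sum_Mf (hA : A.IsSymm) (m : Measure (ι → ℝ)) [IsFiniteMeasure m] (E : ℝ)
    {e : ι → ℝ} (he : ∀ x, 0 < e x) (f : κ → ι → ℝ) (w : ι → ℝ) (hw : ∀ x, 0 ≤ w x) :
    Integrable (fun v => ∑ x, w x * ∑ k, Mf A (WV E e v) (f k) x) m := by
  refine integrable_finset_sum _ fun x _ => Integrable.const_mul
    (integrable_finset_sum _ fun k _ => ?_) _
  have h1 : ∀ v, Mf A (WV E e v) (f k) x ≤ (e x)⁻¹ * ∑ y, ∑ z, (f k y - f k z) ^ 2 := by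
    intro v
    have h2 := En_le hA (fun x => v x - E) e he (f k)
    have h3 : e x * Mf A (WV E e v) (f k) x ≤ En A (Wp (fun x => v x - E) e) (f k) := by
      rw [En_eq_sum_Mf]
      have h4 : ∀ z ∈ Finset.univ, 0 ≤ (-(Wp (fun x => v x - E) e z).im) *
          Mf A (Wp (fun x => v x - E) e) (f k) z := fun z _ => by
        rw [Wp_im, neg_neg]
        exact mul_nonneg (he z).le (Mf_nonneg (fun x => by rw [Wp_im]; linarith [he x]) _ _)
      have h5 := Finset.single_le_sum h4 (Finset.mem_univ x)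
      rw [Wp_im, neg_neg] at h5
      exact h5
    rw [← div_eq_inv_mul, le_div_iff₀ (he x), mul_comm]
    exact h3.trans h2
  refine Integrable.mono' (integrable_const ((e x)⁻¹ * ∑ y, ∑ z, (f k y - f k z) ^ 2))
    (measurable_Mf_Wp (a := fun (v : ι → ℝ) x => v x - E) (h := fun _ => e)
      (fun x => measurable_coord_sub E x) (fun x => measurable_const) (f k)
      x).aestronglyMeasurable (Eventually.of_forall fun v => ?_)
  have h6 : 0 ≤ Mf A (WV E e v) (f k) x :=
    Mf_nonneg (fun x => by rw [WV_eq_Wp, Wp_im]; linarith [he x]) _ _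
  have h7 : ‖Mf A (WV E e v) (f k) x‖ = Mf A (WV E e v) (f k) x := by
    rw [Real.norm_eq_abs, abs_of_nonneg h6]
  exact (le_of_eq h7).trans (h1 v)

/-- trivial cost bound: if `t * w ≤ e` then the cost in direction `w` is at most `10 / t * Phi` -/
theorem CostG_triv (hA : A.IsSymm) [∀ k, IsProbabilityMeasure (ν k)] (hp : ∀ k, 0 ≤ p k)
    {e w : (ι → Λ) → ι → ℝ} {t : ℝ} (ht : 0 < t) (he : ∀ l x, 0 < e l x)
    (hw0 : ∀ l x, 0 ≤ w l x) (hwe : ∀ l x, t * w l x ≤ e l x) :
    CostG A p ν E f e w ≤ 10 / t * PhiG A p ν E f e := by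
  unfold CostG PhiG AvG
  rw [Finset.mul_sum]
  refine Finset.sum_le_sum fun l _ => ?_
  have hpr : 0 ≤ ∏ x, p (l x) := Finset.prod_nonneg fun x _ => hp _
  have h1 : Ex (fun x => ν (l x)) E (e l) (fun W => ∑ x, w l x * ∑ k, -dEn A W (f k) x) ≤
      10 / t * Ex (fun x => ν (l x)) E (e l) (fun W => ∑ k, En A W (f k)) := by
    unfold Ex
    rw [← integral_const_mul]
    refine integral_mono (integrable_sum_dEn hA _ E (he l) f (w l))
      ((integrable_sum_En hA _ E (he l) f).const_mul _) fun v => ?_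
    have hW : ∀ x, (WV E (e l) v x).im < 0 := fun x => by
      rw [WV_eq_Wp, Wp_im]
      linarith [he l x]
    have h2 : ∀ x, w l x * ∑ k, -dEn A (WV E (e l) v) (f k) x ≤
        10 / t * (e l x * ∑ k, Mf A (WV E (e l) v) (f k) x) := by
      intro x
      have h3 : ∑ k, -dEn A (WV E (e l) v) (f k) x ≤ 10 * ∑ k, Mf A (WV E (e l) v) (f k) x := by
        rw [Finset.mul_sum]
        exact Finset.sum_le_sum fun k _ => neg_dEn_le hA hW (f k) x
      have h4 : 0 ≤ ∑ k, Mf A (WV E (e l) v) (f k) x :=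
        Finset.sum_nonneg fun k _ => Mf_nonneg hW _ _
      calc w l x * ∑ k, -dEn A (WV E (e l) v) (f k) x
          ≤ w l x * (10 * ∑ k, Mf A (WV E (e l) v) (f k) x) :=
            mul_le_mul_of_nonneg_left h3 (hw0 l x)
        _ = 10 / t * ((t * w l x) * ∑ k, Mf A (WV E (e l) v) (f k) x) := by
            field_simp
        _ ≤ 10 / t * (e l x * ∑ k, Mf A (WV E (e l) v) (f k) x) := by
            refine mul_le_mul_of_nonneg_left ?_ (by positivity)
            exact mul_le_mul_of_nonneg_right (hwe l x) h4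
    calc ∑ x, w l x * ∑ k, -dEn A (WV E (e l) v) (f k) x
        ≤ ∑ x, 10 / t * (e l x * ∑ k, Mf A (WV E (e l) v) (f k) x) :=
          Finset.sum_le_sum fun x _ => h2 x
      _ = 10 / t * ∑ k, En A (WV E (e l) v) (f k) := by
          rw [← Finset.mul_sum]
          congr 1
          simp_rw [Finset.mul_sum]
          rw [Finset.sum_comm]
          refine Finset.sum_congr rfl fun k _ => ?_
          rw [En_eq_sum_Mf]
          refine Finset.sum_congr rfl fun x _ => ?_
          rw [WV_eq_Wp, Wp_im, neg_neg]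
  calc (∏ x, p (l x)) * _ ≤ (∏ x, p (l x)) * _ := mul_le_mul_of_nonneg_left h1 hpr
    _ = _ := by ring

/-- **trivial stage**: what is at most `b` can be removed at the price `e^10` -/
theorem stage_triv (hA : A.IsSymm) [∀ k, IsProbabilityMeasure (ν k)] (hp : ∀ k, 0 ≤ p k)
    {b : ℝ} (hb : 0 < b) {u w : (ι → Λ) → ι → ℝ} (hub : ∀ l x, b ≤ u l x)
    (hw0 : ∀ l x, 0 ≤ w l x) {t c : ℝ} (ht : 0 < t) (hwb : ∀ l x, t * w l x ≤ b) (hc : 0 ≤ c) :
    PhiG A p ν E f u + c ≤
      (PhiG A p ν E f (fun l x => u l x + t * w l x) + c) * Real.exp 10 := by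
  have hd : ∀ s, 0 ≤ s → HasDerivAt
      (fun s : ℝ => PhiG A p ν E f (fun l x => u l x + s * w l x) + c)
      (-(CostG A p ν E f (fun l x => u l x + s * w l x) w)) s := fun s hs =>
    (hasDerivAt_PhiG hA hb (div_pos hb ht) hub hw0
      (fun l x => by rw [le_div_iff₀ ht, mul_comm]; exact hwb l x) hs).add_const c
  have hpos : ∀ s : ℝ, 0 ≤ s → ∀ l x, 0 < u l x + s * w l x := fun s hs l x => by
    have := mul_nonneg hs (hw0 l x)
    have := hub l x
    linarith
  have h3 := gron_const (Φ := fun s : ℝ => PhiG A p ν E f (fun l x => u l x + s * w l x) + c)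
    (Φ' := fun s => -(CostG A p ν E f (fun l x => u l x + s * w l x) w)) (K := 10 / t) ht.le
    (fun s hs => (hd s hs.1).continuousAt.continuousWithinAt) (fun s hs => hd s hs.1.le)
    (fun s hs => by
      rw [neg_neg]
      have h4 := CostG_triv (E := E) (f := f) (ν := ν) hA hp ht (hpos s hs.1.le) hw0
        (fun l x => by
          have := mul_nonneg hs.1.le (hw0 l x)
          have := hub l x
          have := hwb l x
          linarith)
      refine h4.trans (mul_le_mul_of_nonneg_left (le_add_of_nonneg_right hc) (by positivity)))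
  simp only [zero_mul, add_zero, sub_zero] at h3
  rw [div_mul_cancel₀ _ ht.ne'] at h3
  exact h3

/-- **composition along a path of profiles**.  `Z n := Phi (u n + w n) + c` -/
theorem compose_path (hA : A.IsSymm) [∀ k, IsProbabilityMeasure (ν k)] (hp : ∀ k, 0 ≤ p k)
    {b Wm c M : ℝ} (hb : 0 < b) (hWm : 0 < Wm) (hc : 0 ≤ c) (n : ℕ)
    {u w : ℕ → (ι → Λ) → ι → ℝ} {t η : ℕ → ℝ}
    (hub : ∀ i ≤ n, ∀ l x, b ≤ u i l x) (hw0 : ∀ i ≤ n, ∀ l x, 0 ≤ w i l x)
    (hw1 : ∀ i ≤ n, ∀ l x, w i l x ≤ Wm) (ht : ∀ i ≤ n, 0 < t i) (ht1 : ∀ i ≤ n, t i ≤ 1)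
    (link : ∀ i < n, ∀ l x, u i l x + t i * w i l x = u (i + 1) l x + w (i + 1) l x)
    (start : PhiG A p ν E f (fun l x => u 0 l x + w 0 l x) ≤ M)
    (hub2 : ∀ i ≤ n, ∀ s ∈ Ioo (t i) 1,
      CostG A p ν E f (fun l x => u i l x + s * w i l x) (w i) ≤
        η i / s * (PhiG A p ν E f (fun l x => u i l x + s * w i l x) + c))
    (last : ∀ l x, t n * w n l x ≤ b) :
    PhiG A p ν E f (u n) + c ≤
      (M + c) * Real.exp (∑ i ∈ Finset.range (n + 1), η i * Real.log (1 / t i)) * Real.exp 10 := by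
  have h1 : ∀ i ≤ n, PhiG A p ν E f (fun l x => u i l x + w i l x) + c ≤
      (M + c) * Real.exp (∑ j ∈ Finset.range i, η j * Real.log (1 / t j)) := by
    intro i
    induction i with
    | zero =>
      intro _
      simp only [Finset.range_zero, Finset.sum_empty, Real.exp_zero, mul_one]
      linarith
    | succ i ih =>
      intro hi
      have h2 := stage_inv (E := E) (f := f) (ν := ν) (p := p) (c := c) hA hb hWm
        (hub i (by omega)) (hw0 i (by omega))
        (hw1 i (by omega)) (ht i (by omega)) (ht1 i (by omega)) (hub2 i (by omega))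
      have h3 : (fun (l : ι → Λ) x => u i l x + t i * w i l x) =
          fun l x => u (i + 1) l x + w (i + 1) l x := by
        funext l x
        exact link i (by omega) l x
      rw [h3] at h2
      rw [Finset.sum_range_succ, Real.exp_add, ← mul_assoc]
      exact h2.trans (mul_le_mul_of_nonneg_right (ih (by omega)) (Real.exp_pos _).le)
  have h4 := stage_inv (E := E) (f := f) (ν := ν) (p := p) (c := c) hA hb hWm
    (hub n le_rfl) (hw0 n le_rfl)
    (hw1 n le_rfl) (ht n le_rfl) (ht1 n le_rfl) (hub2 n le_rfl)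
  have h5 := stage_triv (E := E) (f := f) (ν := ν) (p := p) hA hp hb (hub n le_rfl)
    (hw0 n le_rfl) (ht n le_rfl) last hc
  refine h5.trans (mul_le_mul_of_nonneg_right ?_ (Real.exp_pos _).le)
  rw [Finset.sum_range_succ, Real.exp_add, ← mul_assoc]
  exact h4.trans (mul_le_mul_of_nonneg_right (h1 n le_rfl) (Real.exp_pos _).le)

end gen

section torus

variable {N : ℕ} [NeZero N] {Λ : Type*} [Fintype Λ] {p : Λ → ℝ} {ν : Λ → Measure ℝ}

/-- at the homogeneous profile the labels disappear -/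
theorem PhiG_end [∀ k, IsProbabilityMeasure (ν k)] (hp : ∀ k, 0 ≤ p k) (E : ℝ) {b : ℝ}
    (hb : 0 < b) {ρ : Measure ℝ} (hmix : ∑ k, ENNReal.ofReal (p k) • ν k = ρ) :
    PhiG (AT N) p ν E (phi N) (fun _ _ => b) =
      ∑ k : Fin 4, ∫ v, En (AT N) (Wh E b v) (phi N k) ∂(Measure.pi fun _ : Tor N => ρ) := by
  haveI hfin : IsFiniteMeasure (∑ k, ENNReal.ofReal (p k) • ν k) := by
    refine ⟨?_⟩
    rw [Measure.finset_sum_apply]
    refine ENNReal.sum_lt_top.2 fun l _ => ?_
    rw [Measure.smul_apply, smul_eq_mul]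
    exact ENNReal.mul_lt_top ENNReal.ofReal_lt_top (measure_lt_top _ _)
  have hW : ∀ v : Tor N → ℝ, WV E (fun _ => b) v = Wh E b v := by
    intro v
    funext x
    unfold WV Wh
    push_cast
    ring
  have hint : ∀ (m : Measure (Tor N → ℝ)) [IsFiniteMeasure m] (k : Fin 4),
      Integrable (fun v => En (AT N) (Wh E b v) (phi N k)) m := by
    intro m _ k
    refine Integrable.mono' (integrable_const (∑ x, ∑ y, (phi N k x - phi N k y) ^ 2))
      (measurable_En E b _).aestronglyMeasurable (Eventually.of_forall fun v => ?_)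
    rw [Real.norm_eq_abs]
    exact En_bounded hb _ v
  have h1 := Lab125.integral_pi_mix (ι := Tor N) (Λ := Λ) (fun _ => p)
    (fun _ k => hp k) (fun _ => ν)
    (fun v => ∑ k : Fin 4, En (AT N) (Wh E b v) (phi N k))
    (fun L => integrable_finset_sum _ fun k _ => hint _ k)
  rw [hmix] at h1
  subst hmix
  rw [integral_finset_sum _ fun k _ => hint _ k] at h1
  rw [h1, PhiG, AvG]
  refine Finset.sum_congr rfl fun l _ => ?_
  rw [Ex, smul_eq_mul]
  simp only [hW]

/-- the functional of `T1/Defs` is the general one -/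
theorem Phi_eq_PhiG (D : Chain) (E : ℝ) (e : ℕ → ℝ) :
    D.Phi N E e = PhiG (AT N) D.p D.ν E (phi N) (D.prof e) := rfl

theorem Cost_eq_CostG (D : Chain) (E : ℝ) (e : ℕ → ℝ) (j : ℕ) :
    D.Cost N E e j = CostG (AT N) D.p D.ν E (phi N) (D.prof e) (D.wt j) := rfl

end torus

end Vale.Agent.P365.J376
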