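import Vale.Agent.P365.T1G.Main
import Vale.Agent.P365.J376.PathG

/-!
# P365-T1, composition: from the stages to the flow.
-/

set_option linter.all false

namespace Vale.Agent.P365.J376

open P365L P365O P365T1 P365L.TL Matrix Complex MeasureTheory Filter Topology Set
open scoped ComplexConjugate ENNReal

/-- **everything the flow needs on one torus at one background `b`** (`C` = the uniform constant):
labels `Fin K`, label weights and laws whose mixture is `ρ`, stages `0, …, n` with profiles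
`u i + s • w i`. -/
structure Stages (ρ : Measure ℝ) (E C b : ℝ) (N : ℕ) [NeZero N] where
  Λ : Type
  fin : Fintype Λ
  p : Λ → ℝ
  ν : Λ → Measure ℝ
  prob : ∀ k, IsProbabilityMeasure (ν k)
  p_nonneg : ∀ k, 0 ≤ p k
  mix : ∑ k, ENNReal.ofReal (p k) • ν k = ρ
  n : ℕ
  u : ℕ → (Tor N → Λ) → Tor N → ℝ
  w : ℕ → (Tor N → Λ) → Tor N → ℝ
  t : ℕ → ℝ
  η : ℕ → ℝ
  Wm : ℝ
  Wm_pos : 0 < Wm
  u_ge : ∀ i ≤ n, ∀ l x, b ≤ u i l x
  u_last : ∀ l x, u n l x = b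
  w_nonneg : ∀ i ≤ n, ∀ l x, 0 ≤ w i l x
  w_le : ∀ i ≤ n, ∀ l x, w i l x ≤ Wm
  t_pos : ∀ i ≤ n, 0 < t i
  t_le : ∀ i ≤ n, t i ≤ 1
  link : ∀ i < n, ∀ l x, u i l x + t i * w i l x = u (i + 1) l x + w (i + 1) l x
  start : PhiG (AT N) p ν E (phi N) (fun l x => u 0 l x + w 0 l x) ≤ C * (N : ℝ) ^ 2
  hub : ∀ i ≤ n, ∀ s ∈ Ioo (t i) 1,
      CostG (AT N) p ν E (phi N) (fun l x => u i l x + s * w i l x) (w i) ≤
        η i / s * (PhiG (AT N) p ν E (phi N) (fun l x => u i l x + s * w i l x) +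
          C * (N : ℝ) ^ 2)
  last : ∀ l x, t n * w n l x ≤ b
  sum_le : ∑ i ∈ Finset.range (n + 1), η i * Real.log (1 / t i) ≤ C

theorem Stages.bound {ρ : Measure ℝ} {E C b : ℝ} {N : ℕ} [NeZero N] (hb : 0 < b) (hC : 0 ≤ C)
    (S : Stages ρ E C b N) :
    ∑ k : Fin 4, ∫ v, En (AT N) (Wh E b v) (phi N k) ∂(Measure.pi fun _ : Tor N => ρ) ≤
      (2 * C * Real.exp (C + 10)) * (N : ℝ) ^ 2 := by
  letI := S.fin
  haveI := S.prob
  have hc : 0 ≤ C * (N : ℝ) ^ 2 := by positivity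
  have h1 := compose_path (A := AT N) (p := S.p) (ν := S.ν) (E := E) (f := phi N) (AT_symm N)
    S.p_nonneg hb S.Wm_pos hc S.n S.u_ge S.w_nonneg S.w_le S.t_pos S.t_le S.link S.start S.hub
    S.last
  have h2 : S.u S.n = fun _ _ => b := by
    funext l x
    exact S.u_last l x
  rw [h2, PhiG_end S.p_nonneg E hb S.mix] at h1
  have h3 : Real.exp (∑ i ∈ Finset.range (S.n + 1), S.η i * Real.log (1 / S.t i)) ≤
      Real.exp C := Real.exp_le_exp.2 S.sum_le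
  calc ∑ k : Fin 4, ∫ v, En (AT N) (Wh E b v) (phi N k) ∂(Measure.pi fun _ : Tor N => ρ)
      ≤ (C * (N : ℝ) ^ 2 + C * (N : ℝ) ^ 2) *
          Real.exp (∑ i ∈ Finset.range (S.n + 1), S.η i * Real.log (1 / S.t i)) *
          Real.exp 10 := by linarith
    _ ≤ (C * (N : ℝ) ^ 2 + C * (N : ℝ) ^ 2) * Real.exp C * Real.exp 10 := by gcongr
    _ = (2 * C * Real.exp (C + 10)) * (N : ℝ) ^ 2 := by
        rw [Real.exp_add]
        ring

/-- **main_of**: the stages give the flow -/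
theorem flow_of_stages {ρ : Measure ℝ} {L : ℝ}
    (H : ∀ E : ℝ, |E| < 4 + L → ∃ C : ℝ, 0 ≤ C ∧ ∀ n₀ : ℕ, ∃ n, n₀ ≤ n ∧ ∀ N₀ : ℕ,
      ∃ N, N₀ ≤ N ∧ ∃ _ : NeZero N, Nonempty (Stages ρ E C ((1 / 2) ^ n) N)) :
    FlowIn ρ L := by
  intro E hE
  obtain ⟨C, hC, h⟩ := H E hE
  refine ⟨2 * C * Real.exp (C + 10), fun n₀ => ?_⟩
  obtain ⟨n, hn, h1⟩ := h n₀
  refine ⟨n, hn, fun N₀ => ?_⟩
  obtain ⟨N, hN, hz, ⟨S⟩⟩ := h1 N₀
  exact ⟨N, hN, hz, S.bound (by positivity) hC⟩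

end Vale.Agent.P365.J376
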