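import Vale.Agent.P365.J376.Sum

/-!
# P365-T1, composition: summation over the families, polynomial version.
-/

set_option linter.all false

namespace Vale.Agent.P365.J376

open Real Filter Topology

theorem r_ge {r : ℕ → ℝ} (h0 : 2 ≤ r 0) (hr : ∀ i, r (i + 1) = r i ^ 4) (i : ℕ) :
    r 0 ≤ r i := by
  have hgrow := two_pow_le h0 hr
  induction i with
  | zero => exact le_rfl
  | succ i ih =>
    rw [hr]
    have h3 : (1 : ℝ) ≤ r i := by linarith
    calc r 0 ≤ r i := ih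
      _ = r i ^ 1 := (pow_one _).symm
      _ ≤ r i ^ 4 := pow_le_pow_right₀ h3 (by norm_num)

/-- if `η_i ≤ r_i^{-(c+2)}` then `∑ η_i (1 + A r_i^c) ≤ 1` as soon as `r_0 ≥ max 2 (1 + |A|)` -/
theorem sum_le_poly {A : ℝ} {c : ℕ} {r : ℕ → ℝ} (h0 : 2 ≤ r 0) (hA : 1 + |A| ≤ r 0)
    (hr : ∀ i, r (i + 1) = r i ^ 4) {η : ℕ → ℝ} (hη0 : ∀ i, 0 ≤ η i)
    (hη : ∀ i, η i ≤ 1 / r i ^ (c + 2)) (n : ℕ) :
    ∑ i ∈ Finset.range n, η i * (1 + A * (r i) ^ c) ≤ 1 := by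
  have hgrow := two_pow_le h0 hr
  have hge := r_ge h0 hr
  have h1 : ∀ i, η i * (1 + A * (r i) ^ c) ≤ (1 / 2 : ℝ) ^ (i + 1) := by
    intro i
    have hr1 : (1 : ℝ) ≤ r i := by linarith [hge i]
    have hr0 : (0 : ℝ) < r i := by linarith
    have h2 : 1 + A * (r i) ^ c ≤ (1 + |A|) * (r i) ^ c := by
      have h3 : (1 : ℝ) ≤ (r i) ^ c := one_le_pow₀ hr1
      have h4 : A * (r i) ^ c ≤ |A| * (r i) ^ c :=
        mul_le_mul_of_nonneg_right (le_abs_self A) (by positivity)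
      nlinarith
    have h5 : η i * (1 + A * (r i) ^ c) ≤ 1 / r i ^ (c + 2) * ((1 + |A|) * (r i) ^ c) := by
      refine (mul_le_mul_of_nonneg_left h2 (hη0 i)).trans ?_
      exact mul_le_mul_of_nonneg_right (hη i) (by positivity)
    have h6 : 1 / r i ^ (c + 2) * ((1 + |A|) * (r i) ^ c) = (1 + |A|) / (r i * r i) := by
      rw [pow_add, pow_two]
      field_simp
    rw [h6] at h5
    refine h5.trans ?_
    rw [div_le_iff₀ (by positivity)]
    have h7 : (1 / 2 : ℝ) ^ (i + 1) * (2 : ℝ) ^ (i + 1) = 1 := by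
      rw [← mul_pow]
      norm_num
    have h8 : (1 + |A|) ≤ r i := hA.trans (hge i)
    have h9 : (1 : ℝ) ≤ (1 / 2 : ℝ) ^ (i + 1) * r i :=
      h7.symm.le.trans (mul_le_mul_of_nonneg_left (hgrow i) (by positivity))
    calc 1 + |A| ≤ 1 * r i := by linarith
      _ ≤ ((1 / 2 : ℝ) ^ (i + 1) * r i) * r i := mul_le_mul_of_nonneg_right h9 hr0.le
      _ = (1 / 2 : ℝ) ^ (i + 1) * (r i * r i) := by ring
  have h2 : ∀ n : ℕ, ∑ i ∈ Finset.range n, (1 / 2 : ℝ) ^ (i + 1) = 1 - (1 / 2 : ℝ) ^ n := by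
    intro n
    induction n with
    | zero => simp
    | succ n ih =>
      rw [Finset.sum_range_succ, ih]
      ring
  calc ∑ i ∈ Finset.range n, η i * (1 + A * (r i) ^ c)
      ≤ ∑ i ∈ Finset.range n, (1 / 2 : ℝ) ^ (i + 1) := Finset.sum_le_sum fun i _ => h1 i
    _ = 1 - (1 / 2 : ℝ) ^ n := h2 n
    _ ≤ 1 := by
        have : (0 : ℝ) < (1 / 2 : ℝ) ^ n := by positivity
        linarith

/-- `exp (-(log r)^2) ≤ r^{-k}` once `k ≤ log r` -/
theorem exp_log_sq_le {r : ℝ} (hr : 0 < r) {k : ℕ} (hk : (k : ℝ) ≤ log r) :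
    exp (-(log r) ^ 2) ≤ 1 / r ^ k := by
  have h1 : 1 / r ^ k = exp (-(k * log r)) := by
    rw [exp_neg, ← Real.log_pow, Real.exp_log (by positivity), one_div]
  rw [h1]
  refine exp_le_exp.2 ?_
  have h2 : 0 ≤ log r := (Nat.cast_nonneg k).trans hk
  nlinarith

end Vale.Agent.P365.J376
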