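import Vale.Agent.P365.J376.V3
import Vale.Agent.P365.J376.Sum2

/-!
# P365-T1, composition, design v3: from the hub inequalities to the flow.
-/

set_option linter.all false

namespace Vale.Agent.P365.J376

open P365L P365O P365T1 P365L.TL Matrix Complex MeasureTheory Filter Topology Set
open scoped ComplexConjugate ENNReal

/-- everything which is needed on one torus, design v3 -/
structure V3.Hubs (D : V3) (ρ : Measure ℝ) (E C : ℝ) (N : ℕ) [NeZero N] : Prop where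
  ok : D.Ok ρ
  ex : ∃ (Ca : ℝ) (ηc ηb : ℕ → ℝ), 0 ≤ Ca ∧ (∀ i ≤ D.I, 0 ≤ ηc i) ∧ (∀ i ≤ D.I, 0 ≤ ηb i) ∧
    (∀ k, D.mov k → CostLe E Ca (D.ν k)) ∧
    (∀ i ≤ D.I, ∀ s ∈ Ioo (D.t (i + 1)) 1, D.HC N E i s (ηc i)) ∧
    (∀ i ≤ D.I, ∀ s ∈ Ioo (D.t (i + 1)) 1, D.HB N E i s (ηb i) (C * (N : ℝ) ^ 2)) ∧
    10 * Real.log (1 / D.t 0) + ∑ i ∈ Finset.range (D.I + 1),
      Ca * (ηc i + ηb i) * Real.log (1 / D.t (i + 1)) ≤ C

/-- **flow from the hubs** -/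
theorem flow_of_hubs {ρ : Measure ℝ} {L : ℝ}
    (H : ∀ E : ℝ, |E| < 4 + L → ∃ C : ℝ, 88 ≤ C ∧ ∀ n₀ : ℕ, ∃ n, n₀ ≤ n ∧ ∀ N₀ : ℕ,
      ∃ N, N₀ ≤ N ∧ ∃ _ : NeZero N, ∃ D : V3, D.b = (1 / 2) ^ n ∧ D.Hubs ρ E C N) :
    FlowIn ρ L := by
  refine flow_of_stages fun E hE => ?_
  obtain ⟨C, hC, h⟩ := H E hE
  refine ⟨C, by linarith, fun n₀ => ?_⟩
  obtain ⟨n, hn, h1⟩ := h n₀
  refine ⟨n, hn, fun N₀ => ?_⟩
  obtain ⟨N, hN, hz, D, hb, hok, Ca, ηc, ηb, hCa, hηc, hηb, hcost, hHC, hHB, hsum⟩ := h1 N₀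
  refine ⟨N, hN, hz, ?_⟩
  rw [← hb]
  exact ⟨hok.stages N E ηc ηb hηc hηb hC hCa hcost hHC hHB hsum⟩

/-! ### the sum of the logarithmic times -/

/-- summation: `ηc i + ηb i ≤ r_i^{-(4c+2)}`, `log (1/t_{i+1}) ≤ A r_{i+1}^c` for `i < I`, and the
last stage `(ηc I + ηb I) log (1/t_{I+1}) ≤ 1` -/
theorem hsum_of {Ca A B : ℝ} {c I : ℕ} {r ηc ηb t : ℕ → ℝ} (hCa : 0 ≤ Ca) (hA : 0 ≤ A)
    (h0 : 2 ≤ r 0) (hA' : 1 + |A| ≤ r 0) (hr : ∀ i, r (i + 1) = r i ^ 4)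
    (hηc : ∀ i, 0 ≤ ηc i) (hηb : ∀ i, 0 ≤ ηb i)
    (hη : ∀ i, ηc i + ηb i ≤ 1 / r i ^ (4 * c + 2))
    (ht0 : Real.log (1 / t 0) ≤ B)
    (ht : ∀ i < I, Real.log (1 / t (i + 1)) ≤ A * r (i + 1) ^ c)
    (hlast : (ηc I + ηb I) * Real.log (1 / t (I + 1)) ≤ 1) :
    10 * Real.log (1 / t 0) + ∑ i ∈ Finset.range (I + 1),
      Ca * (ηc i + ηb i) * Real.log (1 / t (i + 1)) ≤ 10 * B + 2 * Ca := by
  have h1 := sum_le_poly (A := A) (c := 4 * c) h0 hA' hr (η := fun i => ηc i + ηb i)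
    (fun i => add_nonneg (hηc i) (hηb i)) hη I
  have h2 : ∑ i ∈ Finset.range I, Ca * (ηc i + ηb i) * Real.log (1 / t (i + 1)) ≤
      Ca * ∑ i ∈ Finset.range I, (ηc i + ηb i) * (1 + A * r i ^ (4 * c)) := by
    rw [Finset.mul_sum]
    refine Finset.sum_le_sum fun i hi => ?_
    rw [mul_assoc]
    refine mul_le_mul_of_nonneg_left (mul_le_mul_of_nonneg_left ?_
      (add_nonneg (hηc i) (hηb i))) hCa
    refine (ht i (Finset.mem_range.1 hi)).trans ?_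
    rw [hr, ← pow_mul]
    linarith
  rw [Finset.sum_range_succ]
  have h3 : Ca * (ηc I + ηb I) * Real.log (1 / t (I + 1)) ≤ Ca * 1 := by
    rw [mul_assoc]
    exact mul_le_mul_of_nonneg_left hlast hCa
  have h4 : Ca * ∑ i ∈ Finset.range I, (ηc i + ηb i) * (1 + A * r i ^ (4 * c)) ≤ Ca * 1 :=
    mul_le_mul_of_nonneg_left h1 hCa
  linarith

end Vale.Agent.P365.J376
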